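import Vale.Agent.P002.MonoMat

/-!
P002, nilpotent groups: the torus of monomial representations over one permutation representation.
-/

namespace Vale.Agent.P002

universe u

variable {G : Type u} [Group G] {r n b : ℕ}

/-- The cocycle relations on formal symbols `(g, a)`. -/
noncomputable def cocRel (σ : G →* Equiv.Perm (Fin r)) : Submodule ℤ ((G × Fin r) →₀ ℤ) :=
  Submodule.span ℤ (Set.range fun x : G × G × Fin r =>
    Finsupp.single (x.1 * x.2.1, x.2.2) (1 : ℤ) - Finsupp.single (x.1, σ x.2.1 x.2.2) 1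
      - Finsupp.single (x.2.1, x.2.2) 1)

/-- The universal receiver of the cocycles over `σ`. -/
abbrev CocMod (σ : G →* Equiv.Perm (Fin r)) : Type u := ((G × Fin r) →₀ ℤ) ⧸ cocRel σ

/-- The class of a symbol. -/
noncomputable def cls (σ : G →* Equiv.Perm (Fin r)) (g : G) (a : Fin r) : CocMod σ :=
  (cocRel σ).mkQ (Finsupp.single (g, a) 1)

lemma cls_mul (σ : G →* Equiv.Perm (Fin r)) (g h : G) (a : Fin r) :
    cls σ (g * h) a = cls σ g (σ h a) + cls σ h a := by
  rw [← sub_eq_zero, ← sub_sub, cls, cls, cls, ← map_sub, ← map_sub]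
  exact (Submodule.Quotient.mk_eq_zero _).mpr (Submodule.subset_span ⟨(g, h, a), rfl⟩)

lemma cls_one (σ : G →* Equiv.Perm (Fin r)) (a : Fin r) : cls σ 1 a = 0 := by
  have h := cls_mul σ 1 1 a
  rw [mul_one, map_one, Equiv.Perm.one_apply] at h
  exact left_eq_add.mp h

lemma cocMod_finite (σ : G →* Equiv.Perm (Fin r)) (s : Fin n → G)
    (hs : Subgroup.closure (Set.range s) = ⊤) : Module.Finite ℤ (CocMod σ) := by
  classical
  set S : Submodule ℤ (CocMod σ) :=
    Submodule.span ℤ (Set.range fun x : Fin n × Fin r => cls σ (s x.1) x.2) with hS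
  have hcl : ∀ g, ∀ a, cls σ g a ∈ S := by
    intro g
    have hg : g ∈ Subgroup.closure (Set.range s) := by rw [hs]; trivial
    induction hg using Subgroup.closure_induction with
    | mem x hx =>
      obtain ⟨k, rfl⟩ := hx
      exact fun a => Submodule.subset_span ⟨(k, a), rfl⟩
    | one => exact fun a => cls_one σ a ▸ Submodule.zero_mem S
    | mul x y _ _ hx hy => exact fun a => cls_mul σ x y a ▸ Submodule.add_mem S (hx _) (hy _)
    | inv x _ hx =>
      intro a
      have h := cls_mul σ x x⁻¹ a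
      rw [mul_inv_cancel, cls_one] at h
      rw [eq_neg_of_add_eq_zero_right h.symm]
      exact Submodule.neg_mem S (hx _)
  refine ⟨Submodule.fg_def.mpr ⟨_, Set.finite_range fun x : Fin n × Fin r => cls σ (s x.1) x.2, ?_⟩⟩
  rw [← hS, eq_top_iff]
  intro x _
  obtain ⟨y, rfl⟩ := Submodule.mkQ_surjective (cocRel σ) x
  suffices h : ∀ y, (cocRel σ).mkQ y ∈ S from h y
  intro y
  induction y using Finsupp.induction_linear with
  | zero => rw [map_zero]; exact Submodule.zero_mem S
  | add p q hp hq => rw [map_add]; exact Submodule.add_mem S hp hq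
  | single x z =>
    rw [show Finsupp.single x z = z • Finsupp.single x (1 : ℤ) by simp, map_smul]
    exact Submodule.smul_mem S z (hcl x.1 x.2)

/-- The constraints: determinants, and the cycle products of the boundary elements. -/
noncomputable def constraint (σ : G →* Equiv.Perm (Fin r)) (γ : Fin b → G) :
    AddSubgroup (CocMod σ) :=
  AddSubgroup.closure ((Set.range fun g : G => ∑ a, cls σ g a) ∪
    {x | ∃ (i : Fin b) (a : Fin r) (k : ℕ), ((σ (γ i)) ^ k) a = a ∧
      x = ∑ l ∈ Finset.range k, cls σ (γ i) (((σ (γ i)) ^ l) a)})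

/-- The cocycle of a monomial representation. -/
lemma exists_hom (σ : G →* Equiv.Perm (Fin r)) (t : G → Fin r → ℂˣ)
    (ht : ∀ g h a, t (g * h) a = t g (σ h a) * t h a) :
    ∃ φ : CocMod σ →+ Additive ℂˣ, ∀ g a, φ (cls σ g a) = Additive.ofMul (t g a) := by
  let F : ((G × Fin r) →₀ ℤ) →ₗ[ℤ] Additive ℂˣ :=
    Finsupp.linearCombination ℤ fun x => Additive.ofMul (t x.1 x.2)
  have hle : cocRel σ ≤ LinearMap.ker F := by
    refine Submodule.span_le.mpr ?_
    rintro _ ⟨⟨g, h, a⟩, rfl⟩
    simp [F, ht g h a]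
  refine ⟨((cocRel σ).liftQ F hle).toAddMonoidHom, fun g a => ?_⟩
  simp [cls, F]

/-- The cocycle equation for a monomial representation. -/
lemma coc_of_rep (ρ : G →* SLC r) (σ : G →* Equiv.Perm (Fin r)) (t : G → Fin r → ℂˣ)
    (h : ∀ g, ((ρ g : SLC r) : Matrix (Fin r) (Fin r) ℂ) =
      monoMat (σ g) fun a => ((t g a : ℂˣ) : ℂ)) (g g' : G) (a : Fin r) :
    t (g * g') a = t g (σ g' a) * t g' a := by
  have he := h (g * g')
  rw [map_mul, Matrix.SpecialLinearGroup.coe_mul, h g, h g', monoMat_mul, map_mul] at he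
  have h2 := congrFun (congrFun he ((σ g * σ g') a)) a
  simp only [monoMat_apply, if_true] at h2
  apply Units.ext
  rw [Units.val_mul]
  exact h2.symm

/-- Constrained classes take root-of-unity values. -/
lemma constraint_root (ρ : G →* SLC r) (σ : G →* Equiv.Perm (Fin r)) (t : G → Fin r → ℂˣ)
    (h : ∀ g, ((ρ g : SLC r) : Matrix (Fin r) (Fin r) ℂ) =
      monoMat (σ g) fun a => ((t g a : ℂˣ) : ℂ))
    (γ : Fin b → G) {N : ℕ}
    (hN : ∀ i (μ : ℂ),
      ((ρ (γ i) : SLC r) : Matrix (Fin r) (Fin r) ℂ).charpoly.IsRoot μ → μ ^ N = 1)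
    (φ : CocMod σ →+ Additive ℂˣ) (hφ : ∀ g a, φ (cls σ g a) = Additive.ofMul (t g a)) :
    ∀ x ∈ constraint σ γ, (2 * N) • φ x = 0 := by
  intro x hx
  induction hx using AddSubgroup.closure_induction with
  | mem x hx =>
    rcases hx with ⟨g, rfl⟩ | ⟨i, a, k, hk, rfl⟩
    · rw [map_sum]
      simp only [hφ]
      rw [← ofMul_prod, ← ofMul_pow, ofMul_eq_zero]
      apply Units.ext
      have hd := congrArg Matrix.det (h g)
      rw [Matrix.SpecialLinearGroup.det_coe, det_monoMat] at hd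
      have h1 : ((∏ a, t g a : ℂˣ) : ℂ) ^ 2 = 1 := by
        rw [Units.coe_prod]
        rcases Int.units_eq_one_or (Equiv.Perm.sign (σ g)) with hs | hs <;> rw [hs] at hd
        · simp at hd; rw [← hd]; norm_num
        · simp at hd
          linear_combination ((∏ a, ((t g a : ℂˣ) : ℂ)) - 1) * hd
      rw [Units.val_pow_eq_pow_val, pow_mul, h1, one_pow, Units.val_one]
    · rw [map_sum]
      simp only [hφ]
      rw [← ofMul_prod, ← ofMul_pow, ofMul_eq_zero, mul_comm 2 N, pow_mul,
        cycle_root (σ (γ i)) (t (γ i)) (ρ (γ i)) (h _) (hN i) hk, one_pow]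
  | zero => simp
  | add x y _ _ hx hy => rw [map_add, nsmul_add, hx, hy, add_zero]
  | neg x _ hx => rw [map_neg, neg_nsmul, hx, neg_zero]

/-- The monomial representation of a homomorphism on the universal receiver. -/
lemma exists_rep (σ : G →* Equiv.Perm (Fin r)) (ψ : CocMod σ →+ Additive ℂˣ)
    (hdet : ∀ g, ((Equiv.Perm.sign (σ g) : ℤ) : ℂ) *
      ∏ a, ((Additive.toMul (ψ (cls σ g a)) : ℂˣ) : ℂ) = 1) :
    ∃ ρ : G →* SLC r, ∀ g, ((ρ g : SLC r) : Matrix (Fin r) (Fin r) ℂ) =
      monoMat (σ g) fun a => ((Additive.toMul (ψ (cls σ g a)) : ℂˣ) : ℂ) := by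
  refine ⟨{ toFun := fun g => ⟨_, (det_monoMat (σ g) _).trans (hdet g)⟩
            map_one' := Subtype.ext ?_
            map_mul' := fun g h => Subtype.ext ?_ }, fun g => rfl⟩
  · simp only [cls_one, map_zero, map_one, toMul_zero, Units.val_one]
    exact monoMat_one
  · show monoMat (σ (g * h)) (fun a => ((Additive.toMul (ψ (cls σ (g * h) a)) : ℂˣ) : ℂ)) =
      monoMat (σ g) (fun a => ((Additive.toMul (ψ (cls σ g a)) : ℂˣ) : ℂ)) *
        monoMat (σ h) (fun a => ((Additive.toMul (ψ (cls σ h a)) : ℂˣ) : ℂ))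
    rw [monoMat_mul, ← map_mul]
    congr 1
    funext a
    rw [cls_mul, map_add, toMul_add, Units.val_mul]

end Vale.Agent.P002
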