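import Mathlib

/-!
P002: representations in `SL_r`, boundary conditions and integral representations.
-/

namespace Vale.Agent.P002

universe u

/-- `SL_r` of the complex numbers. -/
abbrev SLC (r : ℕ) := Matrix.SpecialLinearGroup (Fin r) ℂ

variable {G : Type u} [Group G] {r n b : ℕ}

/-- A representation is semisimple: every invariant subspace has an invariant complement. -/
def Semisimple (ρ : G →* SLC r) : Prop :=
  ∀ W : Submodule ℂ (Fin r → ℂ),
    (∀ g, ∀ v ∈ W, Matrix.mulVec (ρ g : Matrix (Fin r) (Fin r) ℂ) v ∈ W) →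
      ∃ W' : Submodule ℂ (Fin r → ℂ),
        (∀ g, ∀ v ∈ W', Matrix.mulVec (ρ g : Matrix (Fin r) (Fin r) ℂ) v ∈ W') ∧ IsCompl W W'

/-- The representations giving the points of `Y`. -/
def InY (γ : Fin b → G) (C : Fin b → SLC r) (ρ : G →* SLC r) : Prop :=
  Semisimple ρ ∧ ∀ i, IsConj (ρ (γ i)) (C i)

/-- A conjugate of the representation has all entries in the ring of integers of `L`. -/
def IntegralIn (L : IntermediateField ℚ ℂ) (ρ : G →* SLC r) : Prop :=
  ∃ P : SLC r, ∀ g i j, ((P * ρ g * P⁻¹ : SLC r) : Matrix (Fin r) (Fin r) ℂ) i j ∈ L ∧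
    IsIntegral ℤ (((P * ρ g * P⁻¹ : SLC r) : Matrix (Fin r) (Fin r) ℂ) i j)

/-- All eigenvalues are roots of unity. -/
def QuasiUnipotent (M : SLC r) : Prop :=
  ∀ μ : ℂ, (M : Matrix (Fin r) (Fin r) ℂ).charpoly.IsRoot μ → ∃ k, 0 < k ∧ μ ^ k = 1

/-- The value at a representation of a polynomial in the entries of the images of generators. -/
noncomputable def evalRep (s : Fin n → G) (f : MvPolynomial (Fin n × Fin r × Fin r) ℂ)
    (ρ : G →* SLC r) : ℂ :=
  MvPolynomial.eval (fun x => (ρ (s x.1) : Matrix (Fin r) (Fin r) ℂ) x.2.1 x.2.2) f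

end Vale.Agent.P002
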