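import Vale.Agent.P002.Torus

/-!
P002: the integral points are dense for a commutative group.
-/

namespace Vale.Agent.P002

universe u

variable {G : Type u} [CommGroup G] {r n b : ℕ}

/-- A uniform exponent for the eigenvalues of quasi-unipotent matrices. -/
lemma exists_order (C : Fin b → SLC r) (hC : ∀ i, QuasiUnipotent (C i)) :
    ∃ N : ℕ, 0 < N ∧ ∀ i (μ : ℂ),
      ((C i : SLC r) : Matrix (Fin r) (Fin r) ℂ).charpoly.IsRoot μ → μ ^ N = 1 := by
  classical
  set R : Fin b → Finset ℂ := fun i =>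
    ((C i : SLC r) : Matrix (Fin r) (Fin r) ℂ).charpoly.roots.toFinset
  have hR : ∀ i (μ : ℂ), ((C i : SLC r) : Matrix (Fin r) (Fin r) ℂ).charpoly.IsRoot μ ↔ μ ∈ R i :=
    fun i μ => by
      simp only [R, Multiset.mem_toFinset, Polynomial.mem_roots']
      exact ⟨fun h => ⟨(Matrix.charpoly_monic _).ne_zero, h⟩, fun h => h.2⟩
  have hex : ∀ i μ, μ ∈ R i → ∃ k, 0 < k ∧ μ ^ k = 1 := fun i μ h => hC i μ ((hR i μ).mpr h)
  choose! k hk0 hk using hex
  refine ⟨∏ i, ∏ μ ∈ R i, k i μ, Finset.prod_pos fun i _ => Finset.prod_pos fun μ h => hk0 i μ h,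
    fun i μ h => ?_⟩
  rw [hR] at h
  obtain ⟨c, hc⟩ := (Finset.dvd_prod_of_mem (k i) h).trans
    (Finset.dvd_prod_of_mem (fun i => ∏ μ ∈ R i, k i μ) (Finset.mem_univ i))
  rw [hc, pow_mul, hk i μ h, one_pow]

lemma charpoly_of_conj {M N : SLC r} (h : IsConj M N) :
    ((M : SLC r) : Matrix (Fin r) (Fin r) ℂ).charpoly =
      ((N : SLC r) : Matrix (Fin r) (Fin r) ℂ).charpoly := by
  obtain ⟨P, hP⟩ := isConj_iff.mp h
  rw [← hP, Matrix.SpecialLinearGroup.coe_mul, Matrix.SpecialLinearGroup.coe_mul,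
    Matrix.charpoly_mul_comm, ← mul_assoc, ← Matrix.SpecialLinearGroup.coe_mul, inv_mul_cancel,
    Matrix.SpecialLinearGroup.coe_one, one_mul]

/-- A monomial in the coordinates of a point of the torus, as a function of one coordinate. -/
lemma isLaurent_monomial {d : ℕ} (c : ℂˣ) (z : Fin d → ℤ) (t : Fin d → ℂˣ) (j : Fin d) :
    IsLaurent fun y => ((c * ∏ l, Function.update t j y l ^ z l : ℂˣ) : ℂ) := by
  have hsplit : ∀ y, c * ∏ l, Function.update t j y l ^ z l =
      c * (y ^ z j * ∏ l ∈ Finset.univ.erase j, t l ^ z l) := by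
    intro y
    rw [← Finset.mul_prod_erase _ _ (Finset.mem_univ j), Function.update_self]
    congr 2
    exact Finset.prod_congr rfl fun l hl => by
      rw [Function.update_of_ne (Finset.ne_of_mem_erase hl)]
  simp only [hsplit, Units.val_mul]
  exact (isLaurent_const _).mul ((isLaurent_zpow _).mul (isLaurent_const _))

/-- The entries of a family of diagonal representations given by monomials are Laurent. -/
lemma isLaurent_family {d : ℕ} (c : Fin r → G → ℂˣ) (z : Fin r → G → Fin d → ℤ)
    (Φ : (Fin d → ℂˣ) → Fin r → (G →* ℂˣ))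
    (hΦ : ∀ t a g, Φ t a g = c a g * ∏ l, t l ^ z a g l)
    (hdet : ∀ t g, ∏ a, ((Φ t a g : ℂˣ) : ℂ) = 1) (s : Fin n → G)
    (f : MvPolynomial (Fin n × Fin r × Fin r) ℂ) (t : Fin d → ℂˣ) (j : Fin d) :
    IsLaurent fun y => evalRep s f
      (diagRep (Φ (Function.update t j y)) (hdet (Function.update t j y))) := by
  have h : ∀ x : Fin n × Fin r × Fin r, IsLaurent fun y : ℂˣ =>
      ((diagRep (Φ (Function.update t j y)) (hdet (Function.update t j y)) (s x.1) : SLC r) :
        Matrix (Fin r) (Fin r) ℂ) x.2.1 x.2.2 := by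
    rintro ⟨k, a, e⟩
    by_cases hae : a = e
    · subst hae
      simp only [diagRep_coe, Matrix.diagonal_apply_eq, hΦ]
      exact isLaurent_monomial _ _ t j
    · simp only [diagRep_coe, Matrix.diagonal_apply_ne _ hae]
      exact isLaurent_const 0
  unfold evalRep
  exact isLaurent_eval (σ := Fin n × Fin r × Fin r) (fun x y =>
    ((diagRep (Φ (Function.update t j y)) (hdet (Function.update t j y)) (s x.1) : SLC r) :
      Matrix (Fin r) (Fin r) ℂ) x.2.1 x.2.2) h f

/-- A diagonal representation with entries among the integral units is integral. -/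
lemma integralIn_diag {M : ℕ} (χ : Fin r → (G →* ℂˣ))
    (hχ : ∀ g, ∏ a, ((χ a g : ℂˣ) : ℂ) = 1) (h : ∀ a g, χ a g ∈ intUnits M) :
    IntegralIn (field M) (diagRep χ hχ) := by
  refine ⟨1, fun g c e => ?_⟩
  rw [one_mul, inv_one, mul_one, diagRep_coe]
  by_cases hce : c = e
  · subst hce
    rw [Matrix.diagonal_apply_eq]
    exact (h c g).1
  · rw [Matrix.diagonal_apply_ne _ hce]
    exact ⟨zero_mem _, isIntegral_zero⟩

theorem dense [Group.FG G] (s : Fin n → G) (γ : Fin b → G) (C : Fin b → SLC r)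
    (hC : ∀ i, QuasiUnipotent (C i)) :
    ∃ L : IntermediateField ℚ ℂ, FiniteDimensional ℚ L ∧
      ∀ f : MvPolynomial (Fin n × Fin r × Fin r) ℂ,
        (∀ (P : SLC r) (ρ : G →* SLC r),
          evalRep s f ((MulAut.conj P).toMonoidHom.comp ρ) = evalRep s f ρ) →
        (∀ ρ, InY γ C ρ → IntegralIn L ρ → evalRep s f ρ = 0) →
        ∀ ρ, InY γ C ρ → evalRep s f ρ = 0 := by
  classical
  obtain ⟨N, hN, hroot⟩ := exists_order C hC
  haveI : AddGroup.FG (Additive G) := inferInstance
  haveI : Module.Finite ℤ (Additive G) :=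
    Module.Finite.iff_addGroup_fg.mpr inferInstance
  haveI : Module.Finite ℤ (Fin r → Additive G) := Module.Finite.pi
  set K : AddSubgroup (Fin r → Additive G) := AddSubgroup.closure
    ((Set.range fun g : G => fun _ : Fin r => Additive.ofMul g) ∪
      Set.range fun x : Fin b × Fin r => Pi.single x.2 (Additive.ofMul (γ x.1))) with hK
  obtain ⟨m, d, co, base, hm, hco, hbase, v, hv⟩ := exists_torus (Fin r → Additive G) K
  refine ⟨field (m * N), field_finite (Nat.mul_pos hm hN), ?_⟩
  intro f hinv hint ρ hρ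
  obtain ⟨P, χ, hχ, hP⟩ := exists_diagonal ρ hρ.1
  have hdiag : evalRep s f ρ = evalRep s f (diagRep χ hχ) := by
    rw [← hinv P ρ]
    congr 1
    ext1 g
    exact hP g
  let φ : (Fin r → Additive G) →+ Additive ℂˣ :=
    { toFun := fun a => ∑ c, MonoidHom.toAdditive (χ c) (a c)
      map_zero' := by simp
      map_add' := fun a e => by simp [Finset.sum_add_distrib] }
  have hφ1 : ∀ c g, φ (Pi.single c (Additive.ofMul g)) = Additive.ofMul (χ c g) := by
    intro c g
    simp only [φ, AddMonoidHom.coe_mk, ZeroHom.coe_mk]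
    rw [Finset.sum_eq_single c (fun e _ he => by rw [Pi.single_eq_of_ne he, map_zero])
      (fun h => absurd (Finset.mem_univ c) h), Pi.single_eq_same]
    rfl
  have hγconj : ∀ i, IsConj (diagRep χ hχ (γ i)) (C i) := by
    intro i
    rw [← hP]
    exact (isConj_iff.mpr ⟨P⁻¹, by group⟩ : IsConj (P * ρ (γ i) * P⁻¹) (ρ (γ i))).trans (hρ.2 i)
  have hφK : ∀ a ∈ K, (N : ℕ) • φ a = 0 := by
    intro a ha
    induction ha using AddSubgroup.closure_induction with
    | mem a ha =>
      rcases ha with ⟨g, rfl⟩ | ⟨⟨i, c⟩, rfl⟩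
      · have : φ (fun _ => Additive.ofMul g) = 0 := by
          apply Additive.toMul.injective
          apply Units.ext
          simp only [φ, AddMonoidHom.coe_mk, ZeroHom.coe_mk, toMul_sum, toMul_zero, Units.val_one,
            Units.coe_prod]
          exact hχ g
        rw [this, smul_zero]
      · rw [hφ1, ← ofMul_pow, ofMul_eq_zero]
        apply Units.ext
        rw [Units.val_pow_eq_pow_val, Units.val_one]
        refine hroot i _ ?_
        rw [← charpoly_of_conj (hγconj i), diagRep_coe, Matrix.charpoly_diagonal,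
          Polynomial.IsRoot, Polynomial.eval_prod]
        exact Finset.prod_eq_zero (Finset.mem_univ c) (by simp)
    | zero => simp
    | add x y _ _ hx hy => rw [map_add, nsmul_add, hx, hy, add_zero]
    | neg x _ hx => rw [map_neg, neg_nsmul, hx, neg_zero]
  have hbase1 : ∀ a, (Additive.toMul (φ (base a))) ^ (m * N) = 1 := by
    intro a
    have h := hφK _ (hbase a)
    rw [map_nsmul, ← mul_nsmul', mul_comm N m] at h
    rw [← toMul_nsmul, h]
    rfl
  -- the torus through the representation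
  let ψ : (Fin d → ℂˣ) → (Fin r → Additive G) → ℂˣ :=
    fun t a => Additive.toMul (φ (base a)) * ∏ j, t j ^ co a j
  have hψadd : ∀ t a e, ψ t (a + e) = ψ t a * ψ t e := by
    intro t a e
    simp only [ψ, map_add, toMul_add, Pi.add_apply, zpow_add, Finset.prod_mul_distrib]
    exact mul_mul_mul_comm _ _ _ _
  have hψ0 : ∀ t, ψ t 0 = 1 := fun t => by simp [ψ]
  have hψK : ∀ t a, a ∈ K → ψ t a = Additive.toMul (φ a) := by
    intro t a ha
    conv_rhs => rw [hv a]
    simp [ψ, hco a ha]
  let χt : (Fin d → ℂˣ) → Fin r → (G →* ℂˣ) := fun t c =>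
    { toFun := fun g => ψ t (Pi.single c (Additive.ofMul g))
      map_one' := by simp [hψ0]
      map_mul' := fun g h => by rw [ofMul_mul, Pi.single_add, hψadd] }
  have hψsum : ∀ t (S : Finset (Fin r)) (a : Fin r → (Fin r → Additive G)),
      ψ t (∑ c ∈ S, a c) = ∏ c ∈ S, ψ t (a c) := by
    intro t S a
    induction S using Finset.induction_on with
    | empty => simp [hψ0]
    | @insert c S hc ih => rw [Finset.sum_insert hc, Finset.prod_insert hc, hψadd, ih]
  have hdet : ∀ t g, ∏ c, ((χt t c g : ℂˣ) : ℂ) = 1 := by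
    intro t g
    rw [← Units.coe_prod]
    change (((∏ c, ψ t (Pi.single c (Additive.ofMul g))) : ℂˣ) : ℂ) = 1
    rw [← hψsum, Finset.univ_sum_single fun _ => Additive.ofMul g,
      hψK t _ (AddSubgroup.subset_closure (Or.inl ⟨g, rfl⟩))]
    simp only [φ, AddMonoidHom.coe_mk, ZeroHom.coe_mk, toMul_sum, Units.coe_prod]
    exact hχ g
  have hY : ∀ t, InY γ C (diagRep (χt t) (hdet t)) := by
    intro t
    refine ⟨diagRep_semisimple _ _, fun i => ?_⟩
    have : diagRep (χt t) (hdet t) (γ i) = diagRep χ hχ (γ i) := by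
      apply Subtype.ext
      change Matrix.diagonal _ = Matrix.diagonal _
      congr 1
      funext c
      change ((ψ t (Pi.single c (Additive.ofMul (γ i))) : ℂˣ) : ℂ) = _
      rw [hψK t _ (AddSubgroup.subset_closure (Or.inr ⟨(i, c), rfl⟩)), hφ1]
      rfl
    rw [this]
    exact hγconj i
  set F : (Fin d → ℂˣ) → ℂ := fun t => evalRep s f (diagRep (χt t) (hdet t)) with hF
  have hFzero : ∀ t, F t = 0 := by
    refine eq_zero_of_grid F ?_ fund_infinite ?_
    · exact fun t j => isLaurent_family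
        (fun c g => Additive.toMul (φ (base (Pi.single c (Additive.ofMul g)))))
        (fun c g => co (Pi.single c (Additive.ofMul g))) χt (fun _ _ _ => rfl) hdet s f t j
    · intro t ht
      refine hint _ (hY t) (integralIn_diag _ _ fun c g => ?_)
      refine Subgroup.mul_mem _ (root_mem (Nat.mul_pos hm hN) (hbase1 _)) ?_
      refine Subgroup.prod_mem _ fun j _ => Subgroup.zpow_mem _ ?_ _
      obtain ⟨k, hk⟩ := ht j
      rw [← hk]
      exact Subgroup.pow_mem _ (fund_mem _) k
  set t₀ : Fin d → ℂˣ := fun j => Additive.toMul (φ (v j))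
  rw [hdiag]
  refine Eq.trans ?_ (hFzero t₀)
  rw [hF]
  congr 1
  ext1 g
  apply Subtype.ext
  change Matrix.diagonal _ = Matrix.diagonal _
  congr 1
  funext c
  congr 1
  change χ c g = ψ t₀ (Pi.single c (Additive.ofMul g))
  have h := congrArg (fun z => Additive.toMul (φ z)) (hv (Pi.single c (Additive.ofMul g)))
  simp only [hφ1, map_add, map_sum, map_zsmul, toMul_add, toMul_sum, toMul_zsmul, toMul_ofMul] at h
  exact h

end Vale.Agent.P002
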