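import Vale.Agent.P002.Defs

/-!
P002: semisimple representations of commutative groups are simultaneously diagonal.
-/

namespace Vale.Agent.P002

open Matrix

universe u

variable {G : Type u} [CommGroup G] {r : ℕ}

/-- The diagonal representation of a family of characters of product one. -/
noncomputable def diagRep (χ : Fin r → (G →* ℂˣ)) (hχ : ∀ g, ∏ a, ((χ a g : ℂˣ) : ℂ) = 1) :
    G →* SLC r where
  toFun g := ⟨Matrix.diagonal fun a => ((χ a g : ℂˣ) : ℂ), by rw [Matrix.det_diagonal]; exact hχ g⟩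
  map_one' := by
    apply Subtype.ext
    simp
  map_mul' g h := by
    apply Subtype.ext
    change _ = Matrix.diagonal _ * Matrix.diagonal _
    rw [Matrix.diagonal_mul_diagonal]
    simp

lemma diagRep_coe (χ : Fin r → (G →* ℂˣ)) (hχ : ∀ g, ∏ a, ((χ a g : ℂˣ) : ℂ) = 1) (g : G) :
    ((diagRep χ hχ g : SLC r) : Matrix (Fin r) (Fin r) ℂ) =
      Matrix.diagonal fun a => ((χ a g : ℂˣ) : ℂ) := rfl

/-- Diagonal representations are semisimple: some coordinate subspace is a complement. -/
lemma diagRep_semisimple (χ : Fin r → (G →* ℂˣ)) (hχ : ∀ g, ∏ a, ((χ a g : ℂˣ) : ℂ) = 1) :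
    Semisimple (diagRep χ hχ) := by
  classical
  intro W _
  set e : Fin r → (Fin r → ℂ) := fun a => Pi.single a 1 with he
  set q := W.mkQ with hq
  obtain ⟨S, hS, hspan, hli⟩ := exists_linearIndependent ℂ (Set.range (q ∘ e))
  have hall : Submodule.span ℂ (Set.range (q ∘ e)) = ⊤ := by
    rw [Set.range_comp, ← Submodule.map_span]
    have h1 : Submodule.span ℂ (Set.range e) = ⊤ := by
      refine eq_top_iff.mpr fun v _ => ?_
      rw [pi_eq_sum_univ v]
      refine Submodule.sum_mem _ fun a _ => Submodule.smul_mem _ _ ?_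
      refine Submodule.subset_span ⟨a, ?_⟩
      funext c
      simp [he, Pi.single_apply, eq_comm]
    rw [h1, Submodule.map_top, hq, Submodule.range_mkQ]
  choose pre hpre using fun x : S => hS x.2
  set I : Set (Fin r) := Set.range pre with hI
  refine ⟨Submodule.span ℂ (e '' I), ?_, ?_⟩
  · intro g v hv
    induction hv using Submodule.span_induction with
    | mem w hw =>
      obtain ⟨a, ha, rfl⟩ := hw
      have h1 : Matrix.mulVec ((diagRep χ hχ g : SLC r) : Matrix (Fin r) (Fin r) ℂ) (e a) =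
          ((χ a g : ℂˣ) : ℂ) • e a := by
        funext c
        rw [diagRep_coe, Matrix.mulVec_diagonal]
        simp only [he, Pi.smul_apply, Pi.single_apply, smul_eq_mul]
        split_ifs with h
        · rw [h]
        · simp
      rw [h1]
      exact Submodule.smul_mem _ _ (Submodule.subset_span ⟨a, ha, rfl⟩)
    | zero => rw [Matrix.mulVec_zero]; exact Submodule.zero_mem _
    | add x y _ _ hx hy => rw [Matrix.mulVec_add]; exact Submodule.add_mem _ hx hy
    | smul c x _ hx => rw [Matrix.mulVec_smul]; exact Submodule.smul_mem _ _ hx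
  · have himg : q '' (e '' I) = S := by
      rw [hI, ← Set.range_comp, ← Set.range_comp]
      refine Set.Subset.antisymm ?_ ?_
      · rintro _ ⟨x, rfl⟩
        have := hpre x
        simp only [Function.comp_apply] at this ⊢
        rw [this]
        exact x.2
      · exact fun x hx => ⟨⟨x, hx⟩, hpre ⟨x, hx⟩⟩
    constructor
    · have hv : q ∘ (fun x : S => e (pre x)) = Subtype.val := funext fun x => hpre x
      have hdis : Disjoint (Submodule.span ℂ (Set.range fun x : S => e (pre x))) (LinearMap.ker q) :=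
        Submodule.range_ker_disjoint (hv ▸ hli)
      rw [hq, Submodule.ker_mkQ] at hdis
      rw [hI, ← Set.range_comp]
      exact hdis.symm
    · rw [codisjoint_iff, eq_top_iff]
      intro v _
      have hv : q v ∈ Submodule.map q (Submodule.span ℂ (e '' I)) := by
        rw [Submodule.map_span, himg, hspan, hall]
        trivial
      obtain ⟨w, hw, hwv⟩ := hv
      rw [show v = (v - w) + w from (sub_add_cancel v w).symm]
      refine Submodule.add_mem_sup ?_ hw
      exact (Submodule.Quotient.eq W).mp hwv.symm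

/-- Commuting operators have a common eigenvector in every nonzero invariant subspace. -/
lemma exists_common_eigen (ρ : G →* SLC r) (W : Submodule ℂ (Fin r → ℂ)) (hW : W ≠ ⊥)
    (hinv : ∀ g, ∀ v ∈ W, Matrix.mulVec (ρ g : Matrix (Fin r) (Fin r) ℂ) v ∈ W) :
    ∃ v ∈ W, v ≠ 0 ∧ ∀ g, ∃ c : ℂ, Matrix.mulVec (ρ g : Matrix (Fin r) (Fin r) ℂ) v = c • v := by
  induction hk : Module.finrank ℂ W using Nat.strong_induction_on generalizing W with
  | _ k ih =>
    by_cases hall : ∀ g, ∃ c : ℂ, ∀ v ∈ W, Matrix.mulVec (ρ g : Matrix (Fin r) (Fin r) ℂ) v = c • v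
    · obtain ⟨v, hv, hv0⟩ := Submodule.exists_mem_ne_zero_of_ne_bot hW
      exact ⟨v, hv, hv0, fun g => ⟨(hall g).choose, (hall g).choose_spec v hv⟩⟩
    push Not at hall
    obtain ⟨g, hg⟩ := hall
    set T : W →ₗ[ℂ] W := (Matrix.mulVecLin (ρ g : Matrix (Fin r) (Fin r) ℂ)).restrict (hinv g)
    haveI : Nontrivial W := Submodule.nontrivial_iff_ne_bot.mpr hW
    obtain ⟨μ, hμ⟩ := Module.End.exists_eigenvalue T
    set W' : Submodule ℂ (Fin r → ℂ) :=
      W ⊓ LinearMap.ker (Matrix.mulVecLin (ρ g : Matrix (Fin r) (Fin r) ℂ) - μ • LinearMap.id) with hW'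
    have hne : W' ≠ ⊥ := by
      obtain ⟨x, hx, hx0⟩ := hμ.exists_hasEigenvector
      rw [Submodule.ne_bot_iff]
      refine ⟨x, Submodule.mem_inf.mpr ⟨x.2, ?_⟩, fun h => hx0 (Subtype.ext h)⟩
      have := congrArg Subtype.val (Module.End.mem_eigenspace_iff.mp hx)
      simp only [LinearMap.mem_ker, LinearMap.sub_apply, LinearMap.smul_apply, LinearMap.id_apply,
        sub_eq_zero]
      exact this
    have hinv' : ∀ h, ∀ v ∈ W', Matrix.mulVec (ρ h : Matrix (Fin r) (Fin r) ℂ) v ∈ W' := by
      intro h v hv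
      obtain ⟨hvW, hvk⟩ := Submodule.mem_inf.mp hv
      refine Submodule.mem_inf.mpr ⟨hinv h v hvW, ?_⟩
      simp only [LinearMap.mem_ker, LinearMap.sub_apply, LinearMap.smul_apply, LinearMap.id_apply,
        sub_eq_zero, Matrix.mulVecLin_apply] at hvk ⊢
      have hc : (ρ g : Matrix (Fin r) (Fin r) ℂ) * (ρ h : Matrix (Fin r) (Fin r) ℂ) =
          (ρ h : Matrix (Fin r) (Fin r) ℂ) * (ρ g : Matrix (Fin r) (Fin r) ℂ) := by
        rw [← Matrix.SpecialLinearGroup.coe_mul, ← Matrix.SpecialLinearGroup.coe_mul, ← map_mul,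
          ← map_mul, mul_comm]
      rw [Matrix.mulVec_mulVec, hc, ← Matrix.mulVec_mulVec, hvk, Matrix.mulVec_smul]
    have hlt : W' < W := by
      refine lt_of_le_of_ne inf_le_left fun h => ?_
      obtain ⟨v, hv, hv'⟩ := hg μ
      apply hv'
      have : v ∈ W' := h ▸ hv
      have h2 := (Submodule.mem_inf.mp this).2
      simpa [sub_eq_zero] using h2
    obtain ⟨v, hv, hv0, hev⟩ :=
      ih _ (hk ▸ Submodule.finrank_lt_finrank_of_lt hlt) W' hne hinv' rfl
    exact ⟨v, inf_le_left (α := Submodule ℂ (Fin r → ℂ)) hv, hv0, hev⟩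

/-- A semisimple representation of a commutative group is conjugate to a diagonal one. -/
lemma exists_diagonal (ρ : G →* SLC r) (hρ : Semisimple ρ) :
    ∃ (P : SLC r) (χ : Fin r → (G →* ℂˣ)) (hχ : ∀ g, ∏ a, ((χ a g : ℂˣ) : ℂ) = 1),
      ∀ g, P * ρ g * P⁻¹ = diagRep χ hχ g := by
  classical
  set E : Set (Fin r → ℂ) :=
    {v | ∀ g, ∃ c : ℂ, Matrix.mulVec (ρ g : Matrix (Fin r) (Fin r) ℂ) v = c • v} with hE
  have hspan : Submodule.span ℂ E = ⊤ := by
    have hinv : ∀ g, ∀ v ∈ Submodule.span ℂ E,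
        Matrix.mulVec (ρ g : Matrix (Fin r) (Fin r) ℂ) v ∈ Submodule.span ℂ E := by
      intro g v hv
      induction hv using Submodule.span_induction with
      | mem w hw =>
        obtain ⟨c, hc⟩ := hw g
        rw [hc]
        exact Submodule.smul_mem _ _ (Submodule.subset_span hw)
      | zero => rw [Matrix.mulVec_zero]; exact Submodule.zero_mem _
      | add x y _ _ hx hy => rw [Matrix.mulVec_add]; exact Submodule.add_mem _ hx hy
      | smul c x _ hx => rw [Matrix.mulVec_smul]; exact Submodule.smul_mem _ _ hx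
    obtain ⟨W', hW', hc⟩ := hρ _ hinv
    by_contra hne
    have hbot : W' ≠ ⊥ := fun h => hne (by
      have := hc.sup_eq_top
      rwa [h, sup_bot_eq] at this)
    obtain ⟨v, hv, hv0, hev⟩ := exists_common_eigen ρ W' hbot hW'
    exact hv0 (Submodule.disjoint_def.mp hc.disjoint v (Submodule.subset_span hev) hv)
  obtain ⟨S, hS, hSspan, hSli⟩ := exists_linearIndependent ℂ E
  let B0 := Module.Basis.mk hSli (show ⊤ ≤ _ by rw [Subtype.range_coe, hSspan, hspan])
  haveI : Fintype S := FiniteDimensional.fintypeBasisIndex B0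
  have hcardS : Fintype.card S = r := by
    rw [← Module.finrank_eq_card_basis B0]; simp
  let σ : S ≃ Fin r := Fintype.equivFinOfCardEq hcardS
  let B := B0.reindex σ
  have hB : ∀ a, B a ∈ E := fun a => by
    simp only [B, Module.Basis.reindex_apply, B0, Module.Basis.mk_apply]
    exact hS (σ.symm a).2
  choose c hc using fun a g => hB a g
  set M : Matrix (Fin r) (Fin r) ℂ := Matrix.of fun i a => B a i with hM
  have hMdet : M.det ≠ 0 := by
    have hli : LinearIndependent ℂ M.col := by
      have : M.col = fun a => B a := by funext a i; rfl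
      rw [this]; exact B.linearIndependent
    exact ((Matrix.isUnit_iff_isUnit_det M).mp
      (Matrix.linearIndependent_cols_iff_isUnit.mp hli)).ne_zero
  have hMcol : ∀ g, (ρ g : Matrix (Fin r) (Fin r) ℂ) * M = M * Matrix.diagonal fun a => c a g := by
    intro g
    ext i a
    rw [Matrix.mul_apply, Matrix.mul_diagonal]
    have h := congrFun (hc a g) i
    simp only [Matrix.mulVec, dotProduct, Pi.smul_apply, smul_eq_mul] at h
    simp only [hM, Matrix.of_apply]
    rw [h, mul_comm]
  rcases Nat.eq_zero_or_pos r with hr | hr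
  · subst hr
    refine ⟨1, fun a => a.elim0, fun g => by simp, fun g => ?_⟩
    apply Subtype.ext
    exact Subsingleton.elim _ _
  set D : Fin r → ℂ := fun a => if a = ⟨0, hr⟩ then M.det⁻¹ else 1 with hD
  set N := M * Matrix.diagonal D with hN
  have hNdet : N.det = 1 := by
    rw [hN, Matrix.det_mul, Matrix.det_diagonal, hD, Finset.prod_ite_eq']
    simp [hMdet]
  have hNcol : ∀ g, (ρ g : Matrix (Fin r) (Fin r) ℂ) * N = N * Matrix.diagonal fun a => c a g := by
    intro g
    rw [hN, ← mul_assoc, hMcol, mul_assoc, mul_assoc, Matrix.diagonal_mul_diagonal,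
      Matrix.diagonal_mul_diagonal]
    congr 2
    funext a
    exact mul_comm _ _
  let Q : SLC r := ⟨N, hNdet⟩
  have hconj : ∀ g, ((Q⁻¹ * ρ g * Q⁻¹⁻¹ : SLC r) : Matrix (Fin r) (Fin r) ℂ) =
      Matrix.diagonal fun a => c a g := by
    intro g
    rw [inv_inv, mul_assoc, Matrix.SpecialLinearGroup.coe_mul, Matrix.SpecialLinearGroup.coe_mul]
    change _ * ((ρ g : Matrix (Fin r) (Fin r) ℂ) * N) = _
    rw [hNcol, ← mul_assoc]
    have hQ : ((Q⁻¹ : SLC r) : Matrix (Fin r) (Fin r) ℂ) * N = 1 := by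
      change ((Q⁻¹ * Q : SLC r) : Matrix (Fin r) (Fin r) ℂ) = 1
      rw [inv_mul_cancel]
      rfl
    rw [hQ, one_mul]
  have hc1 : ∀ a, c a 1 = 1 := by
    intro a
    have := congrFun (congrFun (hconj 1) a) a
    simpa using this.symm
  have hcmul : ∀ a g h, c a (g * h) = c a g * c a h := by
    intro a g h
    have e : (Q⁻¹ * ρ (g * h) * Q⁻¹⁻¹ : SLC r) = (Q⁻¹ * ρ g * Q⁻¹⁻¹) * (Q⁻¹ * ρ h * Q⁻¹⁻¹) := by
      rw [map_mul]; group
    have := congrFun (congrFun (congrArg (fun z : SLC r => (z : Matrix (Fin r) (Fin r) ℂ)) e) a) a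
    simp only [Matrix.SpecialLinearGroup.coe_mul] at this
    rw [← Matrix.SpecialLinearGroup.coe_mul, ← Matrix.SpecialLinearGroup.coe_mul, hconj] at this
    simp only [← Matrix.SpecialLinearGroup.coe_mul, hconj, Matrix.diagonal_mul_diagonal,
      Matrix.diagonal_apply_eq] at this
    exact this
  let χ : Fin r → (G →* ℂˣ) := fun a =>
    MonoidHom.toHomUnits { toFun := c a, map_one' := hc1 a, map_mul' := hcmul a }
  refine ⟨Q⁻¹, χ, fun g => ?_, fun g => Subtype.ext ?_⟩
  · have := congrArg Matrix.det (hconj g)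
    rw [Matrix.det_diagonal, Matrix.SpecialLinearGroup.det_coe] at this
    exact this.symm
  · exact hconj g

end Vale.Agent.P002
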