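import Vale.Agent.P002.Defs

/-!
P002, nilpotent groups: monomial matrices and the two interface statements.
-/

namespace Vale.Agent.P002

universe u

/-- The matrix sending the basis vector `a` to `c a` times the basis vector `σ a`. -/
def monoMat {r : ℕ} (σ : Equiv.Perm (Fin r)) (c : Fin r → ℂ) : Matrix (Fin r) (Fin r) ℂ :=
  Matrix.of fun i a => if i = σ a then c a else 0

/-- Semisimple representations of nilpotent groups are monomial in some basis. -/
def MonomialStatement : Prop :=
  ∀ (G : Type u) [Group G] [Group.IsNilpotent G] (r : ℕ) (ρ : G →* SLC r), Semisimple ρ →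
    ∃ (P : SLC r) (σ : G →* Equiv.Perm (Fin r)) (t : G → Fin r → ℂˣ),
      ∀ g, ((P * ρ g * P⁻¹ : SLC r) : Matrix (Fin r) (Fin r) ℂ) =
        monoMat (σ g) fun a => ((t g a : ℂˣ) : ℂ)

/-- Monomial representations are semisimple. -/
def MonomialSemisimpleStatement : Prop :=
  ∀ (G : Type u) [Group G] (r : ℕ) (ρ : G →* SLC r) (σ : G →* Equiv.Perm (Fin r))
    (t : G → Fin r → ℂˣ),
    (∀ g, ((ρ g : SLC r) : Matrix (Fin r) (Fin r) ℂ) =
      monoMat (σ g) fun a => ((t g a : ℂˣ) : ℂ)) → Semisimple ρ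

end Vale.Agent.P002
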