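import Vale.Agent.P002.Diag

/-!
P002: points with integral coordinates are dense in a translated torus of characters.
-/

namespace Vale.Agent.P002

open Polynomial

/-- A function of a unit given by a Laurent polynomial. -/
def IsLaurent (h : ℂˣ → ℂ) : Prop :=
  ∃ (p : Polynomial ℂ) (N : ℕ), ∀ t : ℂˣ, h t * (t : ℂ) ^ N = p.eval (t : ℂ)

lemma isLaurent_const (c : ℂ) : IsLaurent fun _ => c := ⟨C c, 0, fun t => by simp⟩

lemma IsLaurent.mul {h k : ℂˣ → ℂ} (hh : IsLaurent h) (hk : IsLaurent k) :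
    IsLaurent fun t => h t * k t := by
  obtain ⟨p, N, hp⟩ := hh
  obtain ⟨q, M, hq⟩ := hk
  exact ⟨p * q, N + M, fun t => by rw [eval_mul, ← hp t, ← hq t, pow_add]; ring⟩

lemma IsLaurent.add {h k : ℂˣ → ℂ} (hh : IsLaurent h) (hk : IsLaurent k) :
    IsLaurent fun t => h t + k t := by
  obtain ⟨p, N, hp⟩ := hh
  obtain ⟨q, M, hq⟩ := hk
  exact ⟨p * X ^ M + q * X ^ N, N + M, fun t => by
    rw [eval_add, eval_mul, eval_mul, ← hp t, ← hq t, eval_pow, eval_pow, eval_X, pow_add]; ring⟩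

lemma isLaurent_zpow (z : ℤ) : IsLaurent fun t => ((t ^ z : ℂˣ) : ℂ) := by
  refine ⟨X ^ (z + z.natAbs).toNat, z.natAbs, fun t => ?_⟩
  rw [eval_pow, eval_X, ← Units.val_pow_eq_pow_val, ← Units.val_pow_eq_pow_val, ← Units.val_mul,
    ← zpow_natCast, ← zpow_natCast, ← zpow_add, Int.toNat_of_nonneg (by omega)]

lemma isLaurent_eval {σ : Type*} (F : σ → ℂˣ → ℂ) (hF : ∀ x, IsLaurent (F x))
    (f : MvPolynomial σ ℂ) : IsLaurent fun t => MvPolynomial.eval (fun x => F x t) f := by
  induction f using MvPolynomial.induction_on with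
  | C c => simpa using isLaurent_const c
  | add p q hp hq => simpa using hp.add hq
  | mul_X p x hp => simpa using hp.mul (hF x)

lemma IsLaurent.eq_zero {h : ℂˣ → ℂ} (hh : IsLaurent h) {U : Set ℂˣ} (hU : U.Infinite)
    (h0 : ∀ t ∈ U, h t = 0) (t : ℂˣ) : h t = 0 := by
  obtain ⟨p, N, hp⟩ := hh
  have hp0 : p = 0 := by
    refine Polynomial.eq_zero_of_infinite_isRoot p ?_
    refine (hU.image (fun a _ b _ hab => Units.ext hab)).mono ?_
    rintro _ ⟨t, ht, rfl⟩
    change p.eval (t : ℂ) = 0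
    rw [← hp t, h0 t ht, zero_mul]
  have := hp t
  rw [hp0, eval_zero] at this
  exact (mul_eq_zero.mp this).resolve_right (pow_ne_zero _ t.ne_zero)

/-- A function that is Laurent in each variable and vanishes on a product of infinite sets is zero. -/
lemma eq_zero_of_grid {d : ℕ} (F : (Fin d → ℂˣ) → ℂ)
    (hF : ∀ t j, IsLaurent fun x => F (Function.update t j x)) {U : Set ℂˣ} (hU : U.Infinite)
    (h0 : ∀ t, (∀ j, t j ∈ U) → F t = 0) (t : Fin d → ℂˣ) : F t = 0 := by
  classical
  suffices h : ∀ S : Finset (Fin d), ∀ t, (∀ j ∉ S, t j ∈ U) → F t = 0 from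
    h Finset.univ t (fun j hj => absurd (Finset.mem_univ j) hj)
  intro S
  induction S using Finset.induction_on with
  | empty => exact fun t ht => h0 t fun j => ht j (Finset.notMem_empty j)
  | @insert a S ha ih =>
    intro t ht
    have h := (hF t a).eq_zero hU (fun x hx => ih _ fun j hj => ?_) (t a)
    · simpa using h
    by_cases hja : j = a
    · subst hja; simpa using hx
    · rw [Function.update_of_ne hja]
      exact ht j (by simp [hja, hj])

/-- A real unit of infinite order in an algebraic integer ring. -/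
noncomputable def fund : ℂˣ :=
  ⟨((1 + Real.sqrt 2 : ℝ) : ℂ), ((Real.sqrt 2 - 1 : ℝ) : ℂ),
    by rw [← Complex.ofReal_mul, show (1 + Real.sqrt 2) * (Real.sqrt 2 - 1) = 1 by
      linear_combination Real.mul_self_sqrt (show (0 : ℝ) ≤ 2 by norm_num)]; simp,
    by rw [← Complex.ofReal_mul, show (Real.sqrt 2 - 1) * (1 + Real.sqrt 2) = 1 by
      linear_combination Real.mul_self_sqrt (show (0 : ℝ) ≤ 2 by norm_num)]; simp⟩

lemma fund_infinite : (Set.range fun e : ℕ => fund ^ e).Infinite := by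
  refine Set.infinite_range_of_injective fun a b hab => ?_
  have h := congrArg (fun z : ℂˣ => ‖(z : ℂ)‖) hab
  simp only [Units.val_pow_eq_pow_val, norm_pow] at h
  have h1 : ‖(fund : ℂ)‖ = 1 + Real.sqrt 2 := by
    change ‖((1 + Real.sqrt 2 : ℝ) : ℂ)‖ = _
    rw [Complex.norm_real, Real.norm_eq_abs, abs_of_pos (by positivity)]
  rw [h1] at h
  have h2 : 1 < 1 + Real.sqrt 2 := by
    have : 0 < Real.sqrt 2 := Real.sqrt_pos.mpr two_pos
    linarith
  exact (pow_right_strictMono₀ h2).injective h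

/-- The field generated by the roots of unity of order dividing `M` and the square root of two. -/
noncomputable def field (M : ℕ) : IntermediateField ℚ ℂ :=
  IntermediateField.adjoin ℚ ({z : ℂ | z ^ M = 1} ∪ {((Real.sqrt 2 : ℝ) : ℂ)})

lemma sqrt_two_integral : IsIntegral ℤ (((Real.sqrt 2 : ℝ) : ℂ)) := by
  refine IsIntegral.of_pow (n := 2) two_pos ?_
  rw [← Complex.ofReal_pow, Real.sq_sqrt (by norm_num)]
  exact isIntegral_algebraMap (x := (2 : ℤ))

lemma field_finite {M : ℕ} (hM : 0 < M) : FiniteDimensional ℚ (field M) := by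
  rw [field]
  have hfin : ({z : ℂ | z ^ M = 1} ∪ {((Real.sqrt 2 : ℝ) : ℂ)}).Finite := by
    refine Set.Finite.union ?_ (Set.finite_singleton _)
    refine ((Polynomial.nthRootsFinset M (1 : ℂ)).finite_toSet).subset fun z hz => ?_
    exact (Polynomial.mem_nthRootsFinset hM 1).mpr hz
  haveI : Finite ↑({z : ℂ | z ^ M = 1} ∪ {((Real.sqrt 2 : ℝ) : ℂ)}) := hfin.to_subtype
  refine IntermediateField.finiteDimensional_adjoin fun z hz => ?_
  rcases hz with hz | hz
  · refine IsIntegral.of_pow hM ?_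
    rw [hz]
    exact isIntegral_one
  · rw [Set.mem_singleton_iff] at hz
    rw [hz]
    exact sqrt_two_integral.tower_top

/-- The units of the field that are algebraic integers with integral inverse. -/
noncomputable def intUnits (M : ℕ) : Subgroup ℂˣ where
  carrier := {t | ((t : ℂ) ∈ field M ∧ IsIntegral ℤ (t : ℂ)) ∧
    (((t⁻¹ : ℂˣ) : ℂ) ∈ field M ∧ IsIntegral ℤ ((t⁻¹ : ℂˣ) : ℂ))}
  one_mem' := by
    simp [isIntegral_one]
  mul_mem' := by
    rintro a b ⟨⟨a1, a2⟩, a3, a4⟩ ⟨⟨b1, b2⟩, b3, b4⟩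
    simp only [Set.mem_ofPred_eq, mul_inv, Units.val_mul]
    exact ⟨⟨mul_mem a1 b1, a2.mul b2⟩, mul_mem a3 b3, a4.mul b4⟩
  inv_mem' := by
    rintro a ⟨h, h'⟩
    refine ⟨h', ?_⟩
    rw [inv_inv]
    exact h

lemma root_mem {M : ℕ} (hM : 0 < M) {t : ℂˣ} (h : t ^ M = 1) : t ∈ intUnits M := by
  have key : ∀ s : ℂˣ, s ^ M = 1 → (s : ℂ) ∈ field M ∧ IsIntegral ℤ (s : ℂ) := fun s hs => by
    have hs' : (s : ℂ) ^ M = 1 := by rw [← Units.val_pow_eq_pow_val, hs]; rfl
    exact ⟨IntermediateField.subset_adjoin ℚ _ (Or.inl hs'),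
      IsIntegral.of_pow hM (hs' ▸ isIntegral_one)⟩
  exact ⟨key t h, key t⁻¹ (by rw [inv_pow, h, inv_one])⟩

lemma fund_mem (M : ℕ) : fund ∈ intUnits M := by
  have h2 : ((Real.sqrt 2 : ℝ) : ℂ) ∈ field M :=
    IntermediateField.subset_adjoin ℚ _ (Or.inr rfl)
  refine ⟨⟨?_, ?_⟩, ?_, ?_⟩
  · change ((1 + Real.sqrt 2 : ℝ) : ℂ) ∈ field M
    rw [Complex.ofReal_add, Complex.ofReal_one]
    exact add_mem (one_mem _) h2
  · change IsIntegral ℤ ((1 + Real.sqrt 2 : ℝ) : ℂ)
    rw [Complex.ofReal_add, Complex.ofReal_one]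
    exact isIntegral_one.add sqrt_two_integral
  · change ((Real.sqrt 2 - 1 : ℝ) : ℂ) ∈ field M
    rw [Complex.ofReal_sub, Complex.ofReal_one]
    exact sub_mem h2 (one_mem _)
  · change IsIntegral ℤ ((Real.sqrt 2 - 1 : ℝ) : ℂ)
    rw [Complex.ofReal_sub, Complex.ofReal_one]
    exact sqrt_two_integral.sub isIntegral_one

/-- A translated torus of homomorphisms, all agreeing with `φ` on a subgroup, contains `φ`. -/
theorem exists_torus (A : Type*) [AddCommGroup A] [Module.Finite ℤ A] (K : AddSubgroup A) :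
    ∃ (m d : ℕ) (co : A →+ (Fin d → ℤ)) (base : A →+ A), 0 < m ∧
      (∀ a ∈ K, co a = 0) ∧ (∀ a, m • base a ∈ K) ∧
      ∃ v : Fin d → A, ∀ a, a = base a + ∑ j, co a j • v j := by
  classical
  set N : Submodule ℤ A := AddSubgroup.toIntSubmodule K with hN
  set T := Submodule.torsion ℤ (A ⧸ N) with hT
  haveI : IsNoetherian ℤ (A ⧸ N) := inferInstance
  haveI : Module.Finite ℤ T := Module.Finite.iff_fg.mpr (IsNoetherian.noetherian T)
  haveI : Finite T := Module.finite_of_fg_torsion T (Submodule.torsion_isTorsion)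
  haveI : Fintype T := Fintype.ofFinite T
  set B := (A ⧸ N) ⧸ T
  haveI : Module.Free ℤ B := Module.free_of_finite_type_torsion_free'
  let bs := Module.finBasis ℤ B
  set d := Module.finrank ℤ B
  let p : A →ₗ[ℤ] B := T.mkQ.comp N.mkQ
  have hp : Function.Surjective p := (Submodule.mkQ_surjective T).comp (Submodule.mkQ_surjective N)
  choose v hv using fun j => hp (bs j)
  let co : A →+ (Fin d → ℤ) := ((bs.equivFun : B →ₗ[ℤ] (Fin d → ℤ)).comp p).toAddMonoidHom
  let lift : (Fin d → ℤ) →+ A :=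
    { toFun := fun c => ∑ j, c j • v j
      map_zero' := by simp
      map_add' := fun c e => by simp [add_smul, Finset.sum_add_distrib] }
  refine ⟨Fintype.card T, d, co, AddMonoidHom.id A - lift.comp co, Fintype.card_pos, ?_, ?_, v,
    fun a => ?_⟩
  · intro a ha
    have : N.mkQ a = 0 := (Submodule.Quotient.mk_eq_zero N).mpr ha
    have hpa : p a = 0 := by simp [p, this]
    simp [co, hpa]
  · intro a
    have h1 : p ((AddMonoidHom.id A - lift.comp co) a) = 0 := by
      simp only [AddMonoidHom.sub_apply, AddMonoidHom.id_apply, AddMonoidHom.comp_apply, map_sub]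
      rw [sub_eq_zero]
      change p a = p (∑ j, bs.equivFun (p a) j • v j)
      simp only [map_sum, map_zsmul, hv]
      exact (bs.sum_equivFun (p a)).symm
    have h2 : N.mkQ ((AddMonoidHom.id A - lift.comp co) a) ∈ T :=
      (Submodule.Quotient.mk_eq_zero T).mp h1
    have h3 : Fintype.card T • (⟨_, h2⟩ : T) = 0 := card_nsmul_eq_zero
    have h4 := congrArg Subtype.val h3
    have h5 : N.mkQ (Fintype.card T • (AddMonoidHom.id A - lift.comp co) a) = 0 := by
      rw [map_nsmul]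
      simpa using h4
    exact (Submodule.Quotient.mk_eq_zero N).mp h5
  · simp [lift]

end Vale.Agent.P002
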