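import Vale.Agent.P002.MonoDefs
import Vale.Agent.P002.Torus

/-!
P002, nilpotent groups: monomial matrices and conjugation by diagonal matrices.
-/

namespace Vale.Agent.P002

open Matrix

variable {r : ℕ}

lemma monoMat_apply (σ : Equiv.Perm (Fin r)) (c : Fin r → ℂ) (i a : Fin r) :
    monoMat σ c i a = if i = σ a then c a else 0 := rfl

lemma monoMat_one : monoMat (1 : Equiv.Perm (Fin r)) (fun _ => (1 : ℂ)) = 1 := by
  ext i a
  by_cases h : i = a
  · subst h; rw [monoMat_apply, Matrix.one_apply_eq]; simp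
  · rw [monoMat_apply, Matrix.one_apply_ne h]; simp [h]

lemma monoMat_mul (σ τ : Equiv.Perm (Fin r)) (c e : Fin r → ℂ) :
    monoMat σ c * monoMat τ e = monoMat (σ * τ) fun a => c (τ a) * e a := by
  ext i a
  rw [Matrix.mul_apply, Finset.sum_eq_single (τ a)]
  · simp only [monoMat_apply, Equiv.Perm.mul_apply, if_true]
    by_cases hi : i = σ (τ a)
    · simp [hi]
    · simp [hi]
  · intro b _ hb
    simp [monoMat_apply, hb]
  · exact fun h => absurd (Finset.mem_univ _) h

lemma monoMat_pow (σ : Equiv.Perm (Fin r)) (c : Fin r → ℂ) (k : ℕ) :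
    monoMat σ c ^ k = monoMat (σ ^ k) fun a => ∏ i ∈ Finset.range k, c ((σ ^ i) a) := by
  induction k with
  | zero => simp [monoMat_one]
  | succ k ih =>
    rw [pow_succ' (monoMat σ c), ih, monoMat_mul, pow_succ' σ]
    congr 1
    funext a
    rw [Finset.prod_range_succ, mul_comm]

lemma det_monoMat (σ : Equiv.Perm (Fin r)) (c : Fin r → ℂ) :
    (monoMat σ c).det = ((Equiv.Perm.sign σ : ℤ) : ℂ) * ∏ a, c a := by
  have h : monoMat σ c = (Matrix.diagonal c).submatrix σ.symm id := by
    ext i a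
    simp only [monoMat_apply, Matrix.submatrix_apply, id, Matrix.diagonal_apply, Equiv.symm_apply_eq]
    split_ifs with h
    · rw [h, Equiv.symm_apply_apply]
    · rfl
  rw [h, Matrix.det_permute, Matrix.det_diagonal, Equiv.Perm.sign_symm]

/-- A function with trivial product over every cycle is a coboundary. -/
lemma exists_gauge {α : Type*} [Fintype α] [DecidableEq α] (σ : Equiv.Perm α) (u : α → ℂˣ)
    (hu : ∀ a k, (σ ^ k) a = a → ∏ i ∈ Finset.range k, u ((σ ^ i) a) = 1) :
    ∃ d : α → ℂˣ, ∀ a, d (σ a) = d a * u a := by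
  classical
  let rep : α → α := fun a => (Quotient.mk (Equiv.Perm.SameCycle.setoid σ) a).out
  have hrep : ∀ a, σ.SameCycle (rep a) a := fun a =>
    Quotient.exact (Quotient.out_eq (Quotient.mk (Equiv.Perm.SameCycle.setoid σ) a))
  choose k hk using fun a => (hrep a).exists_nat_pow_eq
  have key : ∀ (x : α) (i j : ℕ), i ≤ j → (σ ^ i) x = (σ ^ j) x →
      ∏ l ∈ Finset.range i, u ((σ ^ l) x) = ∏ l ∈ Finset.range j, u ((σ ^ l) x) := by
    intro x i j hij he
    obtain ⟨m, rfl⟩ := Nat.exists_eq_add_of_le hij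
    rw [Finset.prod_range_add]
    have e : ∀ l, (σ ^ (i + l)) x = (σ ^ l) ((σ ^ i) x) := fun l => by
      rw [add_comm, pow_add, Equiv.Perm.mul_apply]
    simp only [e]
    rw [hu _ m ((e m).symm.trans he.symm), mul_one]
  refine ⟨fun a => ∏ l ∈ Finset.range (k a), u ((σ ^ l) (rep a)), fun a => ?_⟩
  have hra : rep (σ a) = rep a :=
    congrArg Quotient.out (Quotient.sound ((Equiv.Perm.sameCycle_apply_left).mpr (Equiv.Perm.SameCycle.refl σ a)))
  have h1 : (σ ^ (k a + 1)) (rep a) = (σ ^ k (σ a)) (rep a) := by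
    rw [pow_succ', Equiv.Perm.mul_apply, hk a]
    rw [← hra, hk (σ a)]
  have h2 : ∏ l ∈ Finset.range (k (σ a)), u ((σ ^ l) (rep a)) =
      ∏ l ∈ Finset.range (k a + 1), u ((σ ^ l) (rep a)) := by
    rcases le_total (k a + 1) (k (σ a)) with h | h
    · exact (key _ _ _ h h1).symm
    · exact key _ _ _ h h1.symm
  simp only
  rw [hra, h2, Finset.prod_range_succ, hk a]

/-- Monomial matrices with equal cycle products are conjugate in `SL_r`. -/
lemma isConj_monoMat (σ : Equiv.Perm (Fin r)) (c e : Fin r → ℂˣ) (M N : SLC r)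
    (hM : (M : Matrix (Fin r) (Fin r) ℂ) = monoMat σ fun a => ((c a : ℂˣ) : ℂ))
    (hN : (N : Matrix (Fin r) (Fin r) ℂ) = monoMat σ fun a => ((e a : ℂˣ) : ℂ))
    (h : ∀ a k, (σ ^ k) a = a →
      ∏ i ∈ Finset.range k, c ((σ ^ i) a) = ∏ i ∈ Finset.range k, e ((σ ^ i) a)) :
    IsConj M N := by
  rcases Nat.eq_zero_or_pos r with hr | hr
  · subst hr
    have : M = N := Subtype.ext (Subsingleton.elim _ _)
    rw [this]
  obtain ⟨d, hd⟩ := exists_gauge σ (fun a => e a * (c a)⁻¹) fun a k hk => by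
    rw [Finset.prod_mul_distrib, Finset.prod_inv_distrib, h a k hk, mul_inv_cancel]
  obtain ⟨z, hz⟩ := IsAlgClosed.exists_pow_nat_eq ((∏ a, ((d a : ℂˣ) : ℂ))⁻¹) hr
  have hz0 : z ≠ 0 := by
    intro h0
    rw [h0, zero_pow hr.ne'] at hz
    exact inv_ne_zero (Finset.prod_ne_zero_iff.mpr fun a _ => (d a).ne_zero) hz.symm
  have hdet : (Matrix.diagonal fun a => z * ((d a : ℂˣ) : ℂ)).det = 1 := by
    rw [Matrix.det_diagonal, Finset.prod_mul_distrib, Finset.prod_const, Finset.card_univ,
      Fintype.card_fin, hz, inv_mul_cancel₀ (Finset.prod_ne_zero_iff.mpr fun a _ => (d a).ne_zero)]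
  let D : SLC r := ⟨_, hdet⟩
  refine isConj_iff.mpr ⟨D, mul_inv_eq_iff_eq_mul.mpr (Subtype.ext ?_)⟩
  change (Matrix.diagonal fun a => z * ((d a : ℂˣ) : ℂ)) * (M : Matrix (Fin r) (Fin r) ℂ) =
    (N : Matrix (Fin r) (Fin r) ℂ) * Matrix.diagonal fun a => z * ((d a : ℂˣ) : ℂ)
  rw [hM, hN]
  ext i a
  rw [Matrix.diagonal_mul, Matrix.mul_diagonal, monoMat_apply, monoMat_apply]
  split_ifs with hi
  · subst hi
    rw [hd a, Units.val_mul, Units.val_mul, Units.val_inv_eq_inv_val]
    field_simp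
  · simp

/-- The entries on the cycle of a quasi-unipotent monomial matrix multiply to roots of unity. -/
lemma cycle_root (σ : Equiv.Perm (Fin r)) (c : Fin r → ℂˣ) (M : SLC r)
    (hM : (M : Matrix (Fin r) (Fin r) ℂ) = monoMat σ fun a => ((c a : ℂˣ) : ℂ)) {N : ℕ}
    (hN : ∀ μ : ℂ, ((M : SLC r) : Matrix (Fin r) (Fin r) ℂ).charpoly.IsRoot μ → μ ^ N = 1)
    {a : Fin r} {k : ℕ} (hk : (σ ^ k) a = a) :
    (∏ i ∈ Finset.range k, c ((σ ^ i) a)) ^ N = 1 := by
  set A : Matrix (Fin r) (Fin r) ℂ := ((M : SLC r) : Matrix (Fin r) (Fin r) ℂ) with hA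
  have hdvd : A.charpoly ∣ (Polynomial.X ^ N - 1 : Polynomial ℂ) ^ r := by
    have hcard : Multiset.card A.charpoly.roots = r := by
      rw [← (IsAlgClosed.splits A.charpoly).natDegree_eq_card_roots,
        Matrix.charpoly_natDegree_eq_dim, Fintype.card_fin]
    have key : ∀ R : Multiset ℂ, (∀ μ ∈ R, μ ^ N = 1) →
        (R.map fun μ => Polynomial.X - Polynomial.C μ).prod ∣
          (Polynomial.X ^ N - 1 : Polynomial ℂ) ^ Multiset.card R := by
      intro R
      induction R using Multiset.induction_on with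
      | empty => simp
      | cons μ R ih =>
        intro h
        rw [Multiset.map_cons, Multiset.prod_cons, Multiset.card_cons, pow_succ']
        refine mul_dvd_mul ?_ (ih fun x hx => h x (Multiset.mem_cons_of_mem hx))
        refine Polynomial.dvd_iff_isRoot.mpr ?_
        simp only [Polynomial.IsRoot, Polynomial.eval_sub, Polynomial.eval_pow, Polynomial.eval_X,
          Polynomial.eval_one, sub_eq_zero]
        exact h μ (Multiset.mem_cons_self μ R)
    have h := key A.charpoly.roots fun μ hμ => hN μ (Polynomial.isRoot_of_mem_roots hμ)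
    rw [← (IsAlgClosed.splits A.charpoly).eq_prod_roots_of_monic (Matrix.charpoly_monic A), hcard] at h
    exact h
  obtain ⟨Q, hQ⟩ := hdvd
  have hnil : IsNilpotent (A ^ N - 1) := by
    refine ⟨r, ?_⟩
    have h := congrArg (Polynomial.aeval A) hQ
    simpa [Matrix.aeval_self_charpoly] using h
  have hnil' : IsNilpotent ((A ^ k) ^ N - 1) := by
    rw [← pow_mul, mul_comm, pow_mul]
    rw [← geom_sum_mul (A ^ N) k]
    refine Commute.isNilpotent_mul_left ?_ hnil
    exact (Commute.sum_left _ _ _ fun i _ =>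
      ((Commute.refl (A ^ N)).pow_left i).sub_right (Commute.one_right _))
  obtain ⟨j, hj⟩ := hnil'
  set C : ℂ := ((∏ i ∈ Finset.range k, c ((σ ^ i) a) : ℂˣ) : ℂ) with hC
  have hcol : (A ^ k).mulVec (Pi.single a 1) = C • Pi.single a 1 := by
    rw [hM, monoMat_pow]
    ext i
    simp only [Matrix.mulVec_single_one, Matrix.col_apply, monoMat_apply, hk, Pi.smul_apply,
      Pi.single_apply, smul_eq_mul, hC, Units.coe_prod]
    split_ifs <;> simp
  have hcolN : ∀ l, ((A ^ k) ^ l).mulVec (Pi.single a 1) = C ^ l • Pi.single a 1 := by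
    intro l
    induction l with
    | zero => rw [pow_zero, Matrix.one_mulVec, pow_zero, one_smul]
    | succ l ih => rw [pow_succ', ← Matrix.mulVec_mulVec, ih, Matrix.mulVec_smul, hcol, smul_smul,
        ← pow_succ]
  have hcolj : ∀ l, (((A ^ k) ^ N - 1) ^ l).mulVec (Pi.single a 1) =
      (C ^ N - 1) ^ l • Pi.single a 1 := by
    intro l
    induction l with
    | zero => rw [pow_zero, Matrix.one_mulVec, pow_zero, one_smul]
    | succ l ih => rw [pow_succ', ← Matrix.mulVec_mulVec, ih, Matrix.mulVec_smul, Matrix.sub_mulVec,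
        hcolN, Matrix.one_mulVec, pow_succ, mul_smul, sub_smul, one_smul]
  have h := congrFun (hcolj j) a
  rw [hj, Matrix.zero_mulVec] at h
  have h2 : (C ^ N - 1) ^ j = 0 := by simpa using h.symm
  apply Units.ext
  rw [Units.val_pow_eq_pow_val, Units.val_one, ← hC]
  exact sub_eq_zero.mp (pow_eq_zero_iff'.mp h2).1

end Vale.Agent.P002
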