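import Vale.Agent.P002.MonoMat

/-!
P002, nilpotent groups: semisimple representations are monomial.
-/

namespace Vale.Agent.P002

open Module
open scoped commutatorElement

universe u

section Lines

variable {G : Type u} [Group G] {V : Type*} [AddCommGroup V] [Module ℂ V] [FiniteDimensional ℂ V]

/-- A basis of `W` whose lines are permuted by `H`. -/
def HasLines (R : G →* Module.End ℂ V) (H : Subgroup G) (W : Submodule ℂ V) : Prop :=
  ∃ S : Set V, LinearIndepOn ℂ id S ∧ Submodule.span ℂ S = W ∧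
    ∀ h ∈ H, ∀ v ∈ S, ∃ w ∈ S, ∃ c : ℂ, R h v = c • w

/-- Invariance of a subspace under a subgroup. -/
def Stable (R : G →* Module.End ℂ V) (H : Subgroup G) (W : Submodule ℂ V) : Prop :=
  ∀ h ∈ H, ∀ v ∈ W, R h v ∈ W

lemma rep_inv_apply (R : G →* Module.End ℂ V) (g : G) (v : V) : R g⁻¹ (R g v) = v := by
  rw [← Module.End.mul_apply, ← map_mul, inv_mul_cancel, map_one, Module.End.one_apply]

lemma rep_injective (R : G →* Module.End ℂ V) (g : G) : Function.Injective (R g) :=
  Function.LeftInverse.injective (rep_inv_apply R g)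

lemma rep_mul_apply (R : G →* Module.End ℂ V) (g h : G) (v : V) : R (g * h) v = R g (R h v) := by
  rw [map_mul, Module.End.mul_apply]

/-- An irreducible invariant subspace has lines permuted by the group. -/
lemma lines_of_irred [Group.IsNilpotent G] (R : G →* Module.End ℂ V) :
    ∀ (d : ℕ) (H : Subgroup G) (W : Submodule ℂ V), finrank ℂ W = d → W ≠ ⊥ → Stable R H W →
      (∀ U ≤ W, Stable R H U → U = ⊥ ∨ U = W) → HasLines R H W := by
  classical
  intro d
  induction d using Nat.strong_induction_on with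
  | _ d ih =>
  intro H W hd hW0 hst hirr
  obtain ⟨w0, hw0, hw00⟩ := Submodule.exists_mem_ne_zero_of_ne_bot hW0
  by_cases hall : ∀ h ∈ H, ∃ c : ℂ, ∀ v ∈ W, R h v = c • v
  · -- scalars act: the subspace is a line
    have hline : Submodule.span ℂ {w0} = W := by
      have hle : Submodule.span ℂ {w0} ≤ W := by
        rw [Submodule.span_singleton_le_iff_mem]; exact hw0
      refine (hirr _ hle fun h hh v hv => ?_).resolve_left ?_
      · obtain ⟨c, hc⟩ := hall h hh
        rw [hc v (hle hv)]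
        exact Submodule.smul_mem _ c hv
      · rw [Submodule.span_singleton_eq_bot]; exact hw00
    refine ⟨{w0}, ?_, hline, fun h hh v hv => ?_⟩
    · exact LinearIndepOn.singleton hw00
    · obtain ⟨c, hc⟩ := hall h hh
      rw [Set.mem_singleton_iff] at hv
      subst hv
      exact ⟨v, rfl, c, hc v hw0⟩
  · -- an element acting by a nonscalar that commutes with the group up to scalars
    obtain ⟨N, hN⟩ := Subgroup.nilpotent_iff_lowerCentralSeries.mp ‹Group.IsNilpotent G›
    let P : ℕ → Prop := fun k =>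
      ∀ h ∈ H, h ∈ (⊤ : Subgroup G).lowerCentralSeries k → ∃ c : ℂ, ∀ v ∈ W, R h v = c • v
    have hPN : P N := fun h _ hh => by
      rw [hN, Subgroup.mem_bot] at hh
      exact ⟨1, fun v _ => by rw [hh, map_one, Module.End.one_apply, one_smul]⟩
    have hP0 : ¬ P 0 := fun h0 => hall fun h hh => h0 h hh (Subgroup.mem_top _)
    obtain ⟨k, hk, hk1⟩ : ∃ k, ¬ P k ∧ P (k + 1) := by
      by_contra hne
      push Not at hne
      have : ∀ k, ¬ P k := fun k => Nat.rec hP0 (fun j hj => hne j hj) k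
      exact this N hPN
    simp only [P, not_forall] at hk
    obtain ⟨x, hxH, hxk, hx⟩ := hk
    have hcomm : ∀ h ∈ H, ∃ c : ℂ, ∀ v ∈ W, R x (R h v) = c • R h (R x v) := by
      intro h hh
      obtain ⟨c, hc⟩ := hk1 ⁅x, h⁆
        (H.mul_mem (H.mul_mem (H.mul_mem hxH hh) (H.inv_mem hxH)) (H.inv_mem hh))
        (Subgroup.commutator_mem_commutator hxk (Subgroup.mem_top _))
      refine ⟨c, fun v hv => ?_⟩
      rw [← hc _ (hst h hh _ (hst x hxH v hv)), ← rep_mul_apply, ← rep_mul_apply, ← rep_mul_apply]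
      congr 2
      rw [commutatorElement_def]
      group
    choose! c hc using hcomm
    -- an eigenvalue
    let f : Module.End ℂ W := (R x).restrict (fun v hv => hst x hxH v hv)
    haveI : Nontrivial W := Submodule.nontrivial_iff_ne_bot.mpr hW0
    obtain ⟨l, hl⟩ := Module.End.exists_eigenvalue f
    obtain ⟨v0, hv0⟩ := hl.exists_hasEigenvector
    have hv0x : R x v0.1 = l • v0.1 := congrArg Subtype.val (Module.End.mem_eigenspace_iff.mp hv0.1)
    have hv00 : v0.1 ≠ 0 := fun h => hv0.2 (Subtype.ext h)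
    have hl0 : l ≠ 0 := by
      intro h
      rw [h, zero_smul] at hv0x
      exact hv00 (rep_injective R x (hv0x.trans (map_zero _).symm))
    set E : Submodule ℂ V := W ⊓ Module.End.eigenspace (R x) l with hE
    have hEW : E ≤ W := inf_le_left
    have hEx : ∀ v ∈ E, R x v = l • v := fun v hv => Module.End.mem_eigenspace_iff.mp hv.2
    have hE0 : E ≠ ⊥ := fun h => hv00 ((Submodule.mem_bot ℂ).mp
      (h ▸ (show v0.1 ∈ E from ⟨v0.2, Module.End.mem_eigenspace_iff.mpr hv0x⟩)))
    have hElt : E < W := by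
      refine lt_of_le_of_ne hEW fun h => hx ⟨l, fun v hv => ?_⟩
      exact hEx v (by rw [h]; exact hv)
    have hmove : ∀ h ∈ H, ∀ v ∈ E, R x (R h v) = (c h * l) • R h v := by
      intro h hh v hv
      rw [hc h hh v (hEW hv), hEx v hv, map_smul, smul_smul]
    -- the stabiliser
    let K : Subgroup G :=
      { carrier := {h | h ∈ H ∧ Submodule.map (R h) E = E}
        one_mem' := ⟨H.one_mem, by rw [map_one]; exact Submodule.map_id E⟩
        mul_mem' := fun {a b} ha hb => ⟨H.mul_mem ha.1 hb.1, by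
          rw [map_mul, Module.End.mul_eq_comp, Submodule.map_comp, hb.2, ha.2]⟩
        inv_mem' := fun {a} ha => ⟨H.inv_mem ha.1, by
          conv_lhs => rw [← ha.2, ← Submodule.map_comp, ← Module.End.mul_eq_comp, ← map_mul,
            inv_mul_cancel, map_one]
          exact Submodule.map_id E⟩ }
    have hKst : Stable R K E := fun h hh v hv => hh.2.le (Submodule.mem_map_of_mem hv)
    have hKmem : ∀ h ∈ H, c h * l = l → h ∈ K := by
      intro h hh he
      refine ⟨hh, Submodule.eq_of_le_of_finrank_eq ?_ ?_⟩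
      · rintro _ ⟨v, hv, rfl⟩
        exact ⟨hst h hh v (hEW hv), Module.End.mem_eigenspace_iff.mpr (by rw [hmove h hh v hv, he])⟩
      · exact (LinearEquiv.finrank_eq (Submodule.equivMapOfInjective _ (rep_injective R h) E)).symm
    -- invariant subspaces generated by a piece of the eigenspace
    have hgen : ∀ U ≤ E, U ≠ ⊥ → ∀ T : Submodule ℂ V, (∀ h ∈ H, ∀ v ∈ U, R h v ∈ T) → W ≤ T := by
      intro U hU hU0 T hT
      let A : Submodule ℂ V := Submodule.span ℂ {w | ∃ h ∈ H, ∃ v ∈ U, R h v = w}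
      have hAW : A ≤ W := Submodule.span_le.mpr (by
        rintro _ ⟨h, hh, v, hv, rfl⟩; exact hst h hh v (hEW (hU hv)))
      have hAst : Stable R H A := by
        intro g hg v hv
        have : A ≤ A.comap (R g) := Submodule.span_le.mpr (by
          rintro _ ⟨h, hh, v, hv, rfl⟩
          exact Submodule.subset_span ⟨g * h, H.mul_mem hg hh, v, hv, rep_mul_apply R g h v⟩)
        exact this hv
      rcases hirr A hAW hAst with h | h
      · obtain ⟨v, hv, hv'⟩ := Submodule.exists_mem_ne_zero_of_ne_bot hU0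
        exact absurd ((Submodule.mem_bot ℂ).mp (h ▸ (Submodule.subset_span
          ⟨1, H.one_mem, v, hv, by rw [map_one, Module.End.one_apply]⟩ : v ∈ A))) hv'
      · rw [← h]
        exact Submodule.span_le.mpr (by rintro _ ⟨g, hg, v, hv, rfl⟩; exact hT g hg v hv)
    have hKirr : ∀ U ≤ E, Stable R K U → U = ⊥ ∨ U = E := by
      intro U hU hKU
      refine or_iff_not_imp_left.mpr fun hU0 => le_antisymm hU fun e he => ?_
      set Z : Submodule ℂ V := ⨆ (ν : ℂ) (_ : ν ≠ l), Module.End.eigenspace (R x) ν with hZ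
      have hWT : W ≤ U ⊔ Z := hgen U hU hU0 _ fun h hh v hv => by
        by_cases heq : c h * l = l
        · exact Submodule.mem_sup_left (hKU h (hKmem h hh heq) v hv)
        · refine Submodule.mem_sup_right ?_
          rw [hZ]
          exact Submodule.mem_iSup_of_mem (c h * l) (Submodule.mem_iSup_of_mem heq
            (Module.End.mem_eigenspace_iff.mpr (hmove h hh v (hU hv))))
      obtain ⟨u, hu, z, hz, rfl⟩ := Submodule.mem_sup.mp (hWT (hEW he))
      have hz' : z ∈ Module.End.eigenspace (R x) l := by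
        have h := Submodule.sub_mem _ he.2 (hU hu).2
        rwa [add_sub_cancel_left] at h
      have hz0 : z = 0 :=
        Submodule.disjoint_def.mp (Module.End.eigenspaces_iSupIndep (R x) l) z hz' hz
      rw [hz0, add_zero]
      exact hu
    obtain ⟨S0, hS0i, hS0s, hS0⟩ :=
      ih (finrank ℂ E) (hd ▸ Submodule.finrank_lt_finrank_of_lt hElt) K E rfl hE0 hKst hKirr
    have hS0E : ∀ s ∈ S0, s ∈ E := fun s hs => hS0s ▸ Submodule.subset_span hs
    -- translates
    let J := {ν : ℂ // ∃ h, h ∈ H ∧ c h * l = ν}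
    choose g hgH hgν using fun ν : J => ν.2
    let F : (ν : J) → S0 → V := fun ν s => R (g ν) s
    have hFeig : ∀ ν s, F ν s ∈ Module.End.eigenspace (R x) ν.1 := fun ν s => by
      refine Module.End.mem_eigenspace_iff.mpr ?_
      rw [hmove _ (hgH ν) _ (hS0E _ s.2), hgν ν]
    have key : ∀ h ∈ H, ∀ s ∈ S0,
        ∃ w ∈ Set.range (fun p : Σ _ : J, S0 => F p.1 p.2), ∃ a : ℂ, R h s = a • w := by
      intro h hh s hs
      let ν : J := ⟨c h * l, h, hh, rfl⟩
      have hk : (g ν)⁻¹ * h ∈ K := by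
        refine hKmem _ (H.mul_mem (H.inv_mem (hgH ν)) hh) ?_
        set k := (g ν)⁻¹ * h with hkdef
        have hkH : k ∈ H := H.mul_mem (H.inv_mem (hgH ν)) hh
        obtain ⟨e, he, he0⟩ := Submodule.exists_mem_ne_zero_of_ne_bot hE0
        have hgk : g ν * k = h := by rw [hkdef]; group
        have h1 : R x (R h e) = (c (g ν) * (c k * l)) • R h e := by
          rw [← hgk, rep_mul_apply, hc _ (hgH ν) _ (hst k hkH e (hEW he)), hmove k hkH e he,
            map_smul, smul_smul]
        rw [hmove h hh e he] at h1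
        have h2 := smul_left_injective ℂ
          (show R h e ≠ 0 from fun h0 => he0 (rep_injective R h (h0.trans (map_zero _).symm))) h1
        have h3 : c (g ν) * (c k * l) = c (g ν) * l := h2.symm.trans (hgν ν).symm
        refine mul_left_cancel₀ ?_ h3
        intro h0
        have := hgν ν
        rw [h0, zero_mul] at this
        have h4 : (0 : ℂ) = c h * l := this
        have h5 := hmove h hh e he
        rw [← h4, zero_smul] at h5
        exact he0 (rep_injective R h ((rep_injective R x (h5.trans (map_zero _).symm)).trans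
          (map_zero _).symm))
      obtain ⟨s', hs', a, ha⟩ := hS0 _ hk s hs
      refine ⟨F ν ⟨s', hs'⟩, ⟨⟨ν, ⟨s', hs'⟩⟩, rfl⟩, a, ?_⟩
      rw [show R h s = R (g ν) (R ((g ν)⁻¹ * h) s) by rw [← rep_mul_apply, mul_inv_cancel_left], ha,
        map_smul]
    refine ⟨Set.range (fun p : Σ _ : J, S0 => F p.1 p.2), ?_, ?_, ?_⟩
    · refine LinearIndependent.linearIndepOn_id (linearIndependent_iUnion_finite (fun ν => ?_)
        fun ν T _ hνT => ?_)
      · exact hS0i.linearIndependent.map' (R (g ν)) (LinearMap.ker_eq_bot.mpr (rep_injective R _))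
      · refine (Module.End.eigenspaces_iSupIndep (R x) ν.1).mono
          (Submodule.span_le.mpr (by rintro _ ⟨s, rfl⟩; exact hFeig ν s))
          (iSup₂_le fun μ hμ => ?_)
        refine le_iSup₂_of_le μ.1 (fun h => hνT (Subtype.ext h ▸ hμ)) ?_
        exact Submodule.span_le.mpr (by rintro _ ⟨s, rfl⟩; exact hFeig μ s)
    · refine le_antisymm (Submodule.span_le.mpr ?_) (hgen E le_rfl hE0 _ fun h hh v hv => ?_)
      · rintro _ ⟨⟨ν, s⟩, rfl⟩
        exact hst _ (hgH ν) _ (hEW (hS0E _ s.2))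
      · have hle : Submodule.span ℂ S0 ≤ Submodule.comap (R h)
            (Submodule.span ℂ (Set.range (fun p : Σ _ : J, S0 => F p.1 p.2))) :=
          Submodule.span_le.mpr fun s hs => by
            obtain ⟨w, hw, a, ha⟩ := key h hh s hs
            rw [SetLike.mem_coe, Submodule.mem_comap, ha]
            exact Submodule.smul_mem _ a (Submodule.subset_span hw)
        exact hle (hS0s.symm ▸ hv)
    · rintro h hh _ ⟨⟨ν, s⟩, rfl⟩
      obtain ⟨w, hw, a, ha⟩ := key (h * g ν) (H.mul_mem hh (hgH ν)) s s.2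
      exact ⟨w, hw, a, by rw [← ha, rep_mul_apply]⟩

/-- Every invariant subspace of a semisimple representation has lines permuted by the group. -/
lemma lines_of_semisimple [Group.IsNilpotent G] (R : G →* Module.End ℂ V)
    (hss : ∀ U : Submodule ℂ V, Stable R ⊤ U → ∃ U', Stable R ⊤ U' ∧ IsCompl U U') :
    ∀ (d : ℕ) (W : Submodule ℂ V), finrank ℂ W = d → Stable R ⊤ W → HasLines R ⊤ W := by
  intro d
  induction d using Nat.strong_induction_on with
  | _ d ih =>
  intro W hd hW
  by_cases hW0 : W = ⊥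
  · exact ⟨∅, linearIndepOn_empty ℂ id, by rw [Submodule.span_empty, hW0],
      fun _ _ v hv => absurd hv (Set.notMem_empty v)⟩
  by_cases hirr : ∀ U ≤ W, Stable R ⊤ U → U = ⊥ ∨ U = W
  · exact lines_of_irred R d ⊤ W hd hW0 hW hirr
  push Not at hirr
  obtain ⟨U, hUW, hU, hU0, hUne⟩ := hirr
  obtain ⟨U', hU', hc⟩ := hss U hU
  set Q := U' ⊓ W with hQ
  have hsup : U ⊔ Q = W := by
    rw [hQ, ← sup_inf_assoc_of_le U' hUW, hc.sup_eq_top, top_inf_eq]
  have hdis : Disjoint U Q := hc.disjoint.mono_right inf_le_left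
  have hQlt : Q < W := by
    refine lt_of_le_of_ne inf_le_right fun h => hU0 ?_
    rw [h] at hdis
    exact hdis.eq_bot_of_le hUW
  obtain ⟨S1, h1i, h1s, h1⟩ := ih _ (hd ▸ Submodule.finrank_lt_finrank_of_lt
    (lt_of_le_of_ne hUW hUne)) U rfl hU
  obtain ⟨S2, h2i, h2s, h2⟩ := ih _ (hd ▸ Submodule.finrank_lt_finrank_of_lt hQlt) Q rfl
    fun h hh v hv => ⟨hU' h hh v hv.1, hW h hh v hv.2⟩
  refine ⟨S1 ∪ S2, h1i.id_union h2i (by rw [h1s, h2s]; exact hdis),
    by rw [Submodule.span_union, h1s, h2s, hsup], ?_⟩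
  rintro h hh v (hv | hv)
  · obtain ⟨w, hw, a, ha⟩ := h1 h hh v hv; exact ⟨w, Or.inl hw, a, ha⟩
  · obtain ⟨w, hw, a, ha⟩ := h2 h hh v hv; exact ⟨w, Or.inr hw, a, ha⟩

end Lines

/-- The representation by linear maps. -/
noncomputable def endRep {G : Type*} [Group G] {r : ℕ} (ρ : G →* SLC r) :
    G →* Module.End ℂ (Fin r → ℂ) where
  toFun g := Matrix.toLinAlgEquiv' ((ρ g : SLC r) : Matrix (Fin r) (Fin r) ℂ)
  map_one' := by rw [map_one, Matrix.SpecialLinearGroup.coe_one, map_one]
  map_mul' g h := by rw [map_mul, Matrix.SpecialLinearGroup.coe_mul, map_mul]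

lemma endRep_apply {G : Type*} [Group G] {r : ℕ} (ρ : G →* SLC r) (g : G) (v : Fin r → ℂ) :
    endRep ρ g v = Matrix.mulVec ((ρ g : SLC r) : Matrix (Fin r) (Fin r) ℂ) v :=
  Matrix.toLinAlgEquiv'_apply _ _

theorem monomial : MonomialStatement.{u} := by
  classical
  intro G _ _ r ρ hss
  set R := endRep ρ
  obtain ⟨S, hSi, hSs, hS⟩ := lines_of_semisimple R (fun U hU => by
    obtain ⟨U', hU', hc⟩ := hss U fun g v hv => by
      rw [← endRep_apply]; exact hU g (Subgroup.mem_top g) v hv
    exact ⟨U', fun g _ v hv => by rw [endRep_apply]; exact hU' g v hv, hc⟩) _ ⊤ rfl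
    (fun _ _ v _ => Submodule.mem_top)
  let b0 : Basis S ℂ (Fin r → ℂ) := Basis.mk (v := fun s : S => (s : Fin r → ℂ))
    hSi.linearIndependent (by rw [Subtype.range_coe_subtype, Set.ofPred_mem_eq, hSs])
  let e : S ≃ Fin r := b0.indexEquiv (Pi.basisFun ℂ (Fin r))
  let b : Basis (Fin r) ℂ (Fin r → ℂ) := b0.reindex e
  have hbS : ∀ a, b a = ((e.symm a : S) : Fin r → ℂ) := fun a => by simp [b, b0]
  have hlines : ∀ g a, ∃ a' : Fin r, ∃ c : ℂˣ, R g (b a) = (c : ℂ) • b a' := by
    intro g a
    obtain ⟨w, hw, c, hc⟩ := hS g (Subgroup.mem_top g) _ (e.symm a).2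
    rw [← hbS] at hc
    have hc0 : c ≠ 0 := by
      rintro rfl
      rw [zero_smul] at hc
      exact b.ne_zero a (rep_injective R g (hc.trans (map_zero _).symm))
    refine ⟨e ⟨w, hw⟩, Units.mk0 c hc0, ?_⟩
    rw [show b (e ⟨w, hw⟩) = w from (hbS _).trans (by rw [Equiv.symm_apply_apply])]
    exact hc
  choose f t hf using hlines
  have huniq : ∀ (c c' : ℂˣ) (i j : Fin r), (c : ℂ) • b i = (c' : ℂ) • b j → i = j := by
    intro c c' i j h
    have h' := congrArg (fun v => b.repr v i) h
    by_contra hne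
    simp [Finsupp.single_apply, Ne.symm hne] at h'
  have hfmul : ∀ g h a, f (g * h) a = f g (f h a) := fun g h a => by
    refine huniq (t (g * h) a) (t h a * t g (f h a)) _ _ ?_
    rw [← hf, rep_mul_apply, hf h, map_smul, hf g, smul_smul, Units.val_mul]
  have hfone : ∀ a, f 1 a = a := fun a => by
    refine huniq (t 1 a) 1 _ _ ?_
    rw [← hf, map_one, Module.End.one_apply, Units.val_one, one_smul]
  let σ : G →* Equiv.Perm (Fin r) :=
    { toFun := fun g => ⟨f g, f g⁻¹, fun a => by rw [← hfmul, inv_mul_cancel, hfone],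
        fun a => by rw [← hfmul, mul_inv_cancel, hfone]⟩
      map_one' := Equiv.ext hfone
      map_mul' := fun g h => Equiv.ext (hfmul g h) }
  set B : Matrix (Fin r) (Fin r) ℂ := Matrix.of fun i a => b a i with hB
  have hBdet : B.det ≠ 0 := by
    have h : B = (Pi.basisFun ℂ (Fin r)).toMatrix b := by
      ext i a; simp [hB, Basis.toMatrix_apply]
    rw [h]
    letI := (Pi.basisFun ℂ (Fin r)).invertibleToMatrix b
    exact (Matrix.isUnit_det_of_invertible ((Pi.basisFun ℂ (Fin r)).toMatrix b)).ne_zero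
  obtain ⟨z, hz⟩ : ∃ z : ℂ, z ^ r * B.det = 1 := by
    rcases Nat.eq_zero_or_pos r with hr | hr
    · subst hr; exact ⟨1, by rw [Matrix.det_isEmpty, mul_one, one_pow]⟩
    · obtain ⟨z, hz⟩ := IsAlgClosed.exists_pow_nat_eq B.det⁻¹ hr
      exact ⟨z, by rw [hz, inv_mul_cancel₀ hBdet]⟩
  let Q : SLC r := ⟨z • B, by rw [Matrix.det_smul, Fintype.card_fin, hz]⟩
  refine ⟨Q⁻¹, σ, t, fun g => ?_⟩
  have key : ((ρ g : SLC r) : Matrix (Fin r) (Fin r) ℂ) * (z • B) =
      (z • B) * monoMat (σ g) fun a => ((t g a : ℂˣ) : ℂ) := by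
    rw [Matrix.mul_smul, Matrix.smul_mul]
    congr 1
    ext i a
    have h : Matrix.mulVec ((ρ g : SLC r) : Matrix (Fin r) (Fin r) ℂ) (b a) i =
        (t g a : ℂ) * b (f g a) i := by
      rw [← endRep_apply]; exact congrFun (hf g a) i
    rw [Matrix.mul_apply, Matrix.mul_apply]
    refine h.trans ?_
    simp [monoMat_apply, hB, σ, mul_comm]
  have hQ : ((Q⁻¹ : SLC r) : Matrix (Fin r) (Fin r) ℂ) * (z • B) = 1 := by
    change ((Q⁻¹ : SLC r) : Matrix (Fin r) (Fin r) ℂ) * (Q : Matrix (Fin r) (Fin r) ℂ) = 1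
    rw [← Matrix.SpecialLinearGroup.coe_mul, inv_mul_cancel, Matrix.SpecialLinearGroup.coe_one]
  rw [inv_inv, Matrix.SpecialLinearGroup.coe_mul, Matrix.SpecialLinearGroup.coe_mul, mul_assoc]
  change ((Q⁻¹ : SLC r) : Matrix (Fin r) (Fin r) ℂ) * (_ * (z • B)) = _
  rw [key, ← mul_assoc, hQ, one_mul]

theorem monomialSemisimple : MonomialSemisimpleStatement.{u} := by
  classical
  intro G _ r ρ σ t h W hW
  set R := endRep ρ with hR
  have hWR : ∀ g, ∀ v ∈ W, R g v ∈ W := fun g v hv => by rw [hR, endRep_apply]; exact hW g v hv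
  let e : Fin r → Fin r → ℂ := fun i => Pi.single i 1
  let sp : Finset (Fin r) → Submodule ℂ (Fin r → ℂ) := fun S => Submodule.span ℂ (e '' S)
  have hne : (Finset.univ.filter fun S : Finset (Fin r) => Disjoint W (sp S)).Nonempty :=
    ⟨∅, by simp [sp]⟩
  obtain ⟨S, hS, hmax⟩ := Finset.exists_max_image _ Finset.card hne
  rw [Finset.mem_filter] at hS
  have hall : ∀ i, e i ∈ W ⊔ sp S := by
    intro i
    by_contra hi
    have hiS : i ∉ S := fun h' => hi (Submodule.mem_sup_right (Submodule.subset_span ⟨i, h', rfl⟩))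
    have hd : Disjoint W (sp (insert i S)) := by
      rw [Submodule.disjoint_def]
      intro x hxW hx
      simp only [sp, Finset.coe_insert, Set.image_insert_eq, Submodule.span_insert] at hx
      obtain ⟨y, hy, q, hq, rfl⟩ := Submodule.mem_sup.mp hx
      obtain ⟨a, rfl⟩ := Submodule.mem_span_singleton.mp hy
      by_cases ha : a = 0
      · subst ha
        rw [zero_smul, zero_add] at hxW ⊢
        exact Submodule.disjoint_def.mp hS.2 q hxW hq
      · refine absurd ?_ hi
        have h1 : a • e i ∈ W ⊔ sp S := by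
          rw [← add_sub_cancel_right (a • e i) q]
          exact Submodule.sub_mem _ (Submodule.mem_sup_left hxW) (Submodule.mem_sup_right hq)
        simpa [smul_smul, inv_mul_cancel₀ ha] using Submodule.smul_mem _ a⁻¹ h1
    have := hmax (insert i S) (Finset.mem_filter.mpr ⟨Finset.mem_univ _, hd⟩)
    rw [Finset.card_insert_of_notMem hiS] at this
    omega
  have hcompl : IsCompl W (sp S) := by
    refine ⟨hS.2, codisjoint_iff.mpr (eq_top_iff.mpr ?_)⟩
    rw [← (Pi.basisFun ℂ (Fin r)).span_eq, Submodule.span_le]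
    rintro _ ⟨i, rfl⟩
    rw [Pi.basisFun_apply]
    exact hall i
  have hdiag : ∀ g, σ g = 1 → ∀ v ∈ sp S, R g v ∈ sp S := by
    intro g hg
    have hle : sp S ≤ Submodule.comap (R g) (sp S) := by
      refine Submodule.span_le.mpr ?_
      rintro _ ⟨i, hi, rfl⟩
      have : R g (e i) = ((t g i : ℂˣ) : ℂ) • e i := by
        rw [hR, endRep_apply, h g, hg]
        ext k
        by_cases hk : k = i <;> simp [e, monoMat_apply, Pi.single_apply, hk]
      rw [SetLike.mem_coe, Submodule.mem_comap, this]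
      exact Submodule.smul_mem _ _ (Submodule.subset_span ⟨i, hi, rfl⟩)
    exact fun v hv => hle hv
  let p : Module.End ℂ (Fin r → ℂ) := W.subtype.comp (W.projectionOnto (sp S) hcompl)
  have hpW : ∀ v, p v ∈ W := fun v => Submodule.coe_mem _
  have hpfix : ∀ v ∈ W, p v = v := fun v hv =>
    congrArg Subtype.val (Submodule.projectionOnto_apply_left hcompl ⟨v, hv⟩)
  have hpker : ∀ v ∈ sp S, p v = 0 := fun v hv => by
    simp [p, Submodule.projectionOnto_apply_right hcompl ⟨v, hv⟩]
  have hpcomm : ∀ g, σ g = 1 → ∀ v, p (R g v) = R g (p v) := by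
    intro g hg v
    obtain ⟨w, hw, q, hq, rfl⟩ :=
      Submodule.mem_sup.mp (show v ∈ W ⊔ sp S by rw [hcompl.sup_eq_top]; trivial)
    simp only [map_add, hpfix w hw, hpker q hq, hpfix _ (hWR g w hw), hpker _ (hdiag g hg q hq),
      add_zero]
  choose l hl using fun τ : σ.range => MonoidHom.mem_range.mp τ.2
  let avg : Module.End ℂ (Fin r → ℂ) :=
    (Fintype.card σ.range : ℂ)⁻¹ • ∑ τ : σ.range, R (l τ) * p * R (l τ)⁻¹
  have havgW : ∀ v, avg v ∈ W := fun v => by
    simp only [avg, LinearMap.smul_apply, LinearMap.coe_sum, Finset.sum_apply]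
    exact Submodule.smul_mem _ _ (Submodule.sum_mem _ fun τ _ => hWR _ _ (hpW _))
  have havgfix : ∀ v ∈ W, avg v = v := fun v hv => by
    simp only [avg, LinearMap.smul_apply, LinearMap.coe_sum, Finset.sum_apply]
    have : ∀ τ : σ.range, (R (l τ) * p * R (l τ)⁻¹) v = v := fun τ => by
      rw [Module.End.mul_apply, Module.End.mul_apply, hpfix _ (hWR _ v hv), ← rep_mul_apply,
        mul_inv_cancel, map_one, Module.End.one_apply]
    rw [Finset.sum_congr rfl fun τ _ => this τ, Finset.sum_const, Finset.card_univ,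
      ← Nat.cast_smul_eq_nsmul ℂ, smul_smul, inv_mul_cancel₀
      (Nat.cast_ne_zero.mpr Fintype.card_ne_zero), one_smul]
  have havgcomm : ∀ g v, R g (avg v) = avg (R g v) := by
    intro g v
    simp only [avg, LinearMap.smul_apply, LinearMap.coe_sum, Finset.sum_apply, map_smul, map_sum]
    congr 1
    let s : σ.range := ⟨σ g, MonoidHom.mem_range.mpr ⟨g, rfl⟩⟩
    refine Fintype.sum_equiv (Equiv.mulLeft s) _ _ fun τ => ?_
    set τ' := Equiv.mulLeft s τ with hτ'
    have hk : σ ((l τ')⁻¹ * (g * l τ)) = 1 := by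
      rw [map_mul, map_inv, map_mul, hl, hl, inv_mul_eq_one]
      rfl
    simp only [Module.End.mul_apply]
    have h1 : g * l τ = l τ' * ((l τ')⁻¹ * (g * l τ)) := by group
    have h2 : (l τ')⁻¹ * g = ((l τ')⁻¹ * (g * l τ)) * (l τ)⁻¹ := by group
    rw [← rep_mul_apply R g (l τ), h1, rep_mul_apply, ← hpcomm _ hk, ← rep_mul_apply, ← h2,
      rep_mul_apply]
  let proj : (Fin r → ℂ) →ₗ[ℂ] W := LinearMap.codRestrict W avg havgW
  refine ⟨LinearMap.ker proj, fun g v hv => ?_,
    LinearMap.isCompl_of_proj fun x => Subtype.ext (havgfix x x.2)⟩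
  rw [LinearMap.mem_ker] at hv ⊢
  apply Subtype.ext
  have hv' : avg v = 0 := congrArg Subtype.val hv
  change avg (Matrix.mulVec _ v) = 0
  rw [← endRep_apply]
  exact (havgcomm g v).symm.trans (by rw [hv', map_zero])

end Vale.Agent.P002
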