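import Vale.Agent.P002.Cocycle
import Vale.Agent.P002.Density
import Vale.Agent.P002.Monomial

/-!
P002, nilpotent groups: integral points are dense in every space of monomial representations.
-/

namespace Vale.Agent.P002

universe u

variable {G : Type u} [Group G] {r n b : ℕ}

/-- Only finitely many permutation actions of a finitely generated group. -/
lemma finite_perm_homs (s : Fin n → G) (hs : Subgroup.closure (Set.range s) = ⊤) :
    Finite (G →* Equiv.Perm (Fin r)) := by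
  refine Finite.of_injective (fun (σ : G →* Equiv.Perm (Fin r)) k => σ (s k)) fun σ τ h => ?_
  refine MonoidHom.eq_of_eqOn_dense hs ?_
  rintro _ ⟨k, rfl⟩
  exact congrFun h k

/-- A monomial representation with entries among the integral units is integral. -/
lemma integralIn_mono {M : ℕ} (ρ : G →* SLC r) (σ : G →* Equiv.Perm (Fin r))
    (t : G → Fin r → ℂˣ)
    (h : ∀ g, ((ρ g : SLC r) : Matrix (Fin r) (Fin r) ℂ) =
      monoMat (σ g) fun a => ((t g a : ℂˣ) : ℂ))
    (ht : ∀ g a, t g a ∈ intUnits M) : IntegralIn (field M) ρ := by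
  refine ⟨1, fun g c e => ?_⟩
  rw [one_mul, inv_one, mul_one, h g, monoMat_apply]
  by_cases hce : c = σ g e
  · rw [if_pos hce]; exact (ht g e).1
  · rw [if_neg hce]; exact ⟨zero_mem _, isIntegral_zero⟩

theorem dense_nilpotent [Group.IsNilpotent G] (s : Fin n → G)
    (hs : Subgroup.closure (Set.range s) = ⊤) (γ : Fin b → G) (C : Fin b → SLC r)
    (hC : ∀ i, QuasiUnipotent (C i)) :
    ∃ L : IntermediateField ℚ ℂ, FiniteDimensional ℚ L ∧
      ∀ f : MvPolynomial (Fin n × Fin r × Fin r) ℂ,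
        (∀ (P : SLC r) (ρ : G →* SLC r),
          evalRep s f ((MulAut.conj P).toMonoidHom.comp ρ) = evalRep s f ρ) →
        (∀ ρ, InY γ C ρ → IntegralIn L ρ → evalRep s f ρ = 0) →
        ∀ ρ, InY γ C ρ → evalRep s f ρ = 0 := by
  classical
  obtain ⟨N, hN, hroot⟩ := exists_order C hC
  haveI := finite_perm_homs (r := r) s hs
  haveI := Fintype.ofFinite (G →* Equiv.Perm (Fin r))
  have htor : ∀ σ : G →* Equiv.Perm (Fin r), ∃ (m d : ℕ) (co : CocMod σ →+ (Fin d → ℤ))
      (base : CocMod σ →+ CocMod σ), 0 < m ∧ (∀ a ∈ constraint σ γ, co a = 0) ∧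
      (∀ a, m • base a ∈ constraint σ γ) ∧
      ∃ v : Fin d → CocMod σ, ∀ a, a = base a + ∑ j, co a j • v j := fun σ => by
    haveI := cocMod_finite σ s hs
    exact exists_torus (CocMod σ) (constraint σ γ)
  choose m d co base hm hco hbase v hv using htor
  have hM : 0 < (∏ σ, m σ) * (2 * N) :=
    Nat.mul_pos (Finset.prod_pos fun σ _ => hm σ) (by omega)
  refine ⟨field ((∏ σ, m σ) * (2 * N)), field_finite hM, ?_⟩
  intro f hinv hint ρ hρ
  obtain ⟨P, σ, t, hP⟩ := monomial.{u} G r ρ hρ.1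
  set ρ1 : G →* SLC r := (MulAut.conj P).toMonoidHom.comp ρ
  have h1 : ∀ g, ((ρ1 g : SLC r) : Matrix (Fin r) (Fin r) ℂ) =
      monoMat (σ g) fun a => ((t g a : ℂˣ) : ℂ) := hP
  rw [← hinv P ρ]
  have hγ1 : ∀ i, IsConj (ρ1 (γ i)) (C i) := fun i => by
    refine IsConj.trans ?_ (hρ.2 i)
    change IsConj (P * ρ (γ i) * P⁻¹) (ρ (γ i))
    exact isConj_iff.mpr ⟨P⁻¹, by group⟩
  obtain ⟨φ, hφ⟩ := exists_hom σ t (coc_of_rep ρ1 σ t h1)
  have hφK := constraint_root ρ1 σ t h1 γ
    (fun i μ hμ => hroot i μ (by rwa [← charpoly_of_conj (hγ1 i)])) φ hφ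
  have hbase1 : ∀ x, (Additive.toMul (φ (base σ x))) ^ ((∏ τ, m τ) * (2 * N)) = 1 := by
    intro x
    obtain ⟨e, he⟩ := Finset.dvd_prod_of_mem m (Finset.mem_univ σ)
    have h := hφK _ (hbase σ x)
    rw [map_nsmul, ← mul_nsmul', mul_comm (2 * N)] at h
    rw [he, mul_assoc, mul_left_comm, mul_comm e, pow_mul, ← toMul_nsmul, h, toMul_zero, one_pow]
  let ψ : (Fin (d σ) → ℂˣ) → (CocMod σ →+ Additive ℂˣ) := fun τ =>
    AddMonoidHom.mk' (fun x => φ (base σ x) + ∑ j, co σ x j • Additive.ofMul (τ j)) fun x y => by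
      simp only [map_add, Pi.add_apply]
      rw [Finset.sum_congr rfl fun j _ => add_smul (co σ x j) (co σ y j) (Additive.ofMul (τ j)),
        Finset.sum_add_distrib]
      abel
  have hψK : ∀ τ, ∀ x ∈ constraint σ γ, ψ τ x = φ x := by
    intro τ x hx
    conv_rhs => rw [hv σ x]
    simp [ψ, hco σ x hx]
  have hψval : ∀ τ x, Additive.toMul (ψ τ x) =
      Additive.toMul (φ (base σ x)) * ∏ j, τ j ^ co σ x j := by
    intro τ x
    simp [ψ]
  have hdet : ∀ τ g, ((Equiv.Perm.sign (σ g) : ℤ) : ℂ) *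
      ∏ a, ((Additive.toMul (ψ τ (cls σ g a)) : ℂˣ) : ℂ) = 1 := by
    intro τ g
    rw [← Units.coe_prod, ← toMul_sum, ← map_sum,
      hψK τ _ (AddSubgroup.subset_closure (Or.inl ⟨g, rfl⟩)), map_sum]
    simp only [hφ, toMul_sum, toMul_ofMul, Units.coe_prod]
    rw [← det_monoMat, ← h1 g, Matrix.SpecialLinearGroup.det_coe]
  choose R hR using fun τ => exists_rep σ (ψ τ) (hdet τ)
  have hY : ∀ τ, InY γ C (R τ) := by
    intro τ
    refine ⟨monomialSemisimple.{u} G r (R τ) σ _ (hR τ), fun i => IsConj.trans ?_ (hγ1 i)⟩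
    refine isConj_monoMat (σ (γ i)) (fun a => Additive.toMul (ψ τ (cls σ (γ i) a))) (t (γ i))
      (R τ (γ i)) (ρ1 (γ i)) (hR τ (γ i)) (h1 (γ i)) fun a k hk => ?_
    rw [← toMul_sum, ← map_sum,
      hψK τ _ (AddSubgroup.subset_closure (Or.inr ⟨i, a, k, hk, rfl⟩)), map_sum]
    simp only [hφ, toMul_sum, toMul_ofMul]
  set F : (Fin (d σ) → ℂˣ) → ℂ := fun τ => evalRep s f (R τ) with hF
  have hFzero : ∀ τ, F τ = 0 := by
    refine eq_zero_of_grid F ?_ fund_infinite ?_
    · intro τ j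
      unfold F evalRep
      refine isLaurent_eval (σ := Fin n × Fin r × Fin r) (fun x y =>
        ((R (Function.update τ j y) (s x.1) : SLC r) : Matrix (Fin r) (Fin r) ℂ) x.2.1 x.2.2) ?_ f
      rintro ⟨k, a, e⟩
      simp only [hR, monoMat_apply, hψval]
      by_cases hae : a = σ (s k) e
      · simp only [if_pos hae]
        exact isLaurent_monomial _ _ τ j
      · simp only [if_neg hae]
        exact isLaurent_const 0
    · intro τ hτ
      refine hint _ (hY τ) (integralIn_mono _ σ _ (hR τ) fun g a => ?_)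
      rw [hψval]
      refine Subgroup.mul_mem _ (root_mem hM (hbase1 _)) ?_
      refine Subgroup.prod_mem _ fun j _ => Subgroup.zpow_mem _ ?_ _
      obtain ⟨k, hk⟩ := hτ j
      rw [← hk]
      exact Subgroup.pow_mem _ (fund_mem _) k
  set τ₀ : Fin (d σ) → ℂˣ := fun j => Additive.toMul (φ (v σ j)) with hτ₀
  have hψ0 : ∀ x, ψ τ₀ x = φ x := by
    intro x
    conv_rhs => rw [hv σ x]
    simp [ψ, τ₀]
  have heq : R τ₀ = ρ1 := by
    ext1 g
    apply Subtype.ext
    rw [hR τ₀ g, h1 g]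
    congr 1
    funext a
    rw [hψ0, hφ, toMul_ofMul]
  change evalRep s f ρ1 = 0
  rw [← heq]
  exact hFzero τ₀

end Vale.Agent.P002
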